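import Vale.Agent.P257.H80.HazVV
import Vale.Agent.P236Z.Det.T1Eq
import Vale.Agent.P251.M.CobDec

/-!
# P236, block St: automorphisms of the additive law in characteristic three
-/

namespace Vale.Agent.P236K.St

open Vale.Agent.P217 Vale.Agent.P251.F Vale.Agent.P257.H80 Vale.Agent.P236Z PowerSeries

variable {R : Type} [CommRing R]

/-- the monomial in the coefficients of a series -/
noncomputable def mono (s : InvSeries R) (a : ℕ →₀ ℕ) : R := a.prod fun i m => s.c (i + 1) ^ m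

theorem mono_eq_zero {s : InvSeries R} {d : ℕ} (hs : ∀ i, ¬ d ∣ i + 1 → s.c (i + 1) = 0)
    {a : ℕ →₀ ℕ} (ha : ¬ (d : ℤ) ∣ Cob.degU a) : mono s a = 0 := by
  by_contra h
  refine ha (Finset.dvd_sum fun i hi => Dvd.dvd.mul_left ?_ _)
  by_contra h1
  refine h (Finset.prod_eq_zero hi ?_)
  beta_reduce
  rw [hs i fun h2 => h1 (Int.natCast_dvd_natCast.2 h2), zero_pow (Finsupp.mem_support_iff.1 hi)]

theorem mono_two {s : InvSeries R} (hs : s.c 1 = 0) {a : ℕ →₀ ℕ} (ha : Cob.degU a = 2) :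
    ∃ m : ℤ, mono s a = m • s.c 2 := by
  by_cases h0 : a 0 = 0
  · have h1 : a = Finsupp.single 1 (a 1) := by
      ext i
      by_contra h
      have h2 : i ≠ 1 := fun e => h (by rw [e, Finsupp.single_eq_same])
      rw [Finsupp.single_eq_of_ne h2] at h
      have h3 : i ≠ 0 := fun e => h (e ▸ h0)
      have h4 : ((a i : ℕ) : ℤ) * ((i + 1 : ℕ) : ℤ) ≤ Cob.degU a :=
        Finset.single_le_sum (f := fun i => ((a i : ℕ) : ℤ) * ((i + 1 : ℕ) : ℤ))
          (fun _ _ => by positivity) (Finsupp.mem_support_iff.2 h)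
      have h5 : (1 : ℤ) ≤ (a i : ℕ) := by omega
      have h6 : (3 : ℤ) ≤ ((i + 1 : ℕ) : ℤ) := by omega
      nlinarith
    rw [h1, Cob.degU, Finsupp.sum_single_index (by simp)] at ha
    have h2 : a 1 = 1 := by omega
    refine ⟨1, ?_⟩
    rw [h1, h2, mono, Finsupp.prod_single_index (by simp), pow_one, one_smul]
  · refine ⟨0, (Finset.prod_eq_zero (Finsupp.mem_support_iff.2 h0) ?_).trans (zero_smul _ _).symm⟩
    beta_reduce
    rw [zero_add, hs, zero_pow h0]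

theorem c_one_eq (h3 : (3 : R) = 0) {s : InvSeries R} (h0 : s.c 0 = 1)
    (hs : s • P251.F.addLaw R = P251.F.addLaw R) : s.c 1 = 0 := by
  have h := congrArg (coeff 2) (smul_multSeries s (P251.F.addLaw R) 2)
  have h1 : coeff 1 s.val = 1 := h0
  have h2 : coeff 2 (multSeries (P251.F.addLaw R).toFG 2) = 0 := by
    refine (congrArg (coeff 2) (mulS_addLaw 2)).trans ?_
    rw [coeff_succ_mul_X, ← map_natCast (C (R := R)), coeff_C]
    rfl
  rw [hs, Det.coeff2_subst (constantCoeff_multSeries _ _), Det.coeff2_subst s.cc,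
    coeff_one_multSeries, h1, h2] at h
  change coeff 2 s.val = 0
  push_cast at h
  linear_combination (coeff 2 s.val) * h3 - h

/-- the series `x + a x ^ 3` -/
noncomputable def gs (a : R) : InvSeries R := strictMk fun m => if m = 1 then a else 0

theorem gs_val (a : R) : (gs a).val = X + C a * X ^ 3 := by
  ext n
  rcases n with _ | _ | n
  · simp [(gs a).cc]
  · exact (c_zero_strictMk _).trans (by simp [coeff_X_pow])
  · refine (c_succ_strictMk _ n).trans ?_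
    by_cases h : n = 1 <;> simp [coeff_X_pow, coeff_X, h]

theorem subst_gs {σ : Type} (a : R) {t : MvPowerSeries σ R} (ht : HasSubst t) :
    subst t (gs a).val = t + MvPowerSeries.C a * t ^ 3 := by
  rw [gs_val, subst_add ht, subst_mul ht, subst_pow ht, subst_X ht, subst_C]

theorem cube_add {A : Type} [CommRing A] (h3 : (3 : A) = 0) (x y : A) :
    (x + y) ^ 3 = x ^ 3 + y ^ 3 := by
  linear_combination (x ^ 2 * y + x * y ^ 2) * h3

theorem gs_smul (h3 : (3 : R) = 0) (a : R) : gs a • P251.F.addLaw R = P251.F.addLaw R := by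
  have h : (3 : MvPowerSeries (Fin 2) R) = 0 := by
    rw [← map_ofNat (MvPowerSeries.C (σ := Fin 2) (R := R)) 3, h3, map_zero]
  refine (InvSeries.smul_eq_iff_isHom _ _ _).2 ⟨(gs a).cc, ?_⟩
  rw [subst_gs a (HasSubst.X 0), subst_gs a (HasSubst.X 1), subst_addLaw _ _ (by simp) (by simp)]
  change subst (MvPowerSeries.X 0 + MvPowerSeries.X 1 : MvPowerSeries (Fin 2) R) _ = _
  rw [subst_gs a (HasSubst.of_constantCoeff_zero (by simp)), cube_add h]
  ring

theorem gs_c (a : R) : (gs a).c 2 = a := c_succ_strictMk _ 1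

theorem gs_mul_val (a : R) (s : InvSeries R) : (gs a * s).val = s.val + C a * s.val ^ 3 :=
  subst_gs a s.hs

theorem gs_two (h3 : (3 : R) = 0) (a : R) :
    (gs a * gs a).val = X + C (2 * a) * X ^ 3 + C (a ^ 4) * X ^ 9 := by
  have h : (3 : R⟦X⟧) = 0 := by rw [← map_ofNat (C (R := R)) 3, h3, map_zero]
  rw [gs_mul_val, gs_val, cube_add h, map_mul, map_pow, map_ofNat]
  ring

theorem gs_two_c (h3 : (3 : R) = 0) (a : R) : (gs a * gs a).c 2 = 2 * a := by
  rw [InvSeries.c, gs_two h3]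
  simp [coeff_X_pow, coeff_X, -map_mul, -map_pow]

theorem gs_three (h3 : (3 : R) = 0) (a : R) (i : ℕ) (hi : ¬ 26 ∣ i + 1) :
    (gs a * (gs a * gs a)).c (i + 1) = 0 := by
  have h : (3 : R⟦X⟧) = 0 := by rw [← map_ofNat (C (R := R)) 3, h3, map_zero]
  have h1 : (gs a * (gs a * gs a)).val = X + C (a ^ 13) * X ^ 27 := by
    rw [gs_mul_val, gs_two h3, cube_add h, cube_add h]
    simp only [map_mul, map_pow, map_ofNat]
    linear_combination (C a * X ^ 3 + 3 * C a ^ 4 * X ^ 9) * h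
  rw [InvSeries.c, h1, map_add, coeff_C_mul, coeff_X, coeff_X_pow, if_neg (by omega),
    if_neg (by omega), mul_zero, add_zero]

/-- The class `X Y ^ 2 + X ^ 2 Y` is not a sum of three degenerate terms on the cyclic group
generated by `x + a x ^ 3`. -/
theorem final_alg (h3 : (3 : R) = 0) {z v₁ a₁ a₂ b₁ b₂ : R} (j : ℕ)
    (h001 : (0 : R) ^ 3 ^ j * (z ^ 3 ^ j) ^ 2 + (0 ^ 3 ^ j) ^ 2 * z ^ 3 ^ j = v₁ + (a₁ + 0))
    (h011 : z ^ 3 ^ j * (0 ^ 3 ^ j) ^ 2 + (z ^ 3 ^ j) ^ 2 * 0 ^ 3 ^ j = 0 + (a₁ + b₁))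
    (h022 : (2 * z) ^ 3 ^ j * (0 ^ 3 ^ j) ^ 2 + ((2 * z) ^ 3 ^ j) ^ 2 * 0 ^ 3 ^ j = 0 + (a₂ + b₂))
    (h012 : z ^ 3 ^ j * (z ^ 3 ^ j) ^ 2 + (z ^ 3 ^ j) ^ 2 * z ^ 3 ^ j = v₁ + (a₂ + b₁))
    (h023 : (2 * z) ^ 3 ^ j * (z ^ 3 ^ j) ^ 2 + ((2 * z) ^ 3 ^ j) ^ 2 * z ^ 3 ^ j =
      v₁ + (0 + b₂)) : z ^ 3 ^ (j + 1) = 0 := by
  have h1 : (2 * z) ^ 3 ^ j = -z ^ 3 ^ j := by
    rw [show 2 * z = -z by linear_combination z * h3, Odd.neg_pow (Odd.pow (by decide))]
  rw [zero_pow (by positivity)] at h001 h011 h022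
  rw [h1] at h022 h023
  rw [pow_succ, pow_mul]
  linear_combination (z ^ 3 ^ j) ^ 3 * h3 - h012 + h001 + h011 + h022 - h023 + h001 + a₁ * h3

end Vale.Agent.P236K.St
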