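import Vale.Agent.P236K.St.Split
import Vale.Agent.P236K.St.Alg

/-!
# P236, block St: `π_4 (H ⊗ H)` and the powers of its generator
-/

open CategoryTheory MonoidalCategory MonObj Limits Pretriangulated

set_option linter.unusedSectionVars false

universe u

namespace Vale.Agent.P236K.St

open Vale.Agent.P251 Vale.Agent.P251.S Vale.Agent.P251.T Vale.Agent.P251.M Vale.Agent.P251.F
  Vale.Agent.P251.I Vale.Agent.P251.H EvenSpheres Vale.Agent.P257.H80 Vale.Agent.P236K.St5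
  Vale.Agent.P236Z

section general

variable {T : Type u} [Category.{0} T] [Preadditive T] [HasZeroObject T]
    [HasShift T ℤ] [∀ n : ℤ, (shiftFunctor T n).Additive] [Pretriangulated T] [IsTriangulated T]
    [MonoidalCategory T] [SymmetricCategory T] [TensorTriangulated T] [MonoidalClosed T]
    [HasCoproducts.{0} T] [HasProducts.{0} T] [StableCat T] [LocallySmall.{0} T]

variable {F : SpaceFunctor T} {e : F.S.obj CCF ≅ (stdEven T).L} {D : MUData T}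

theorem basis_ne {K B : T} [MonObj K] [MonObj B] {φ : K ⟶ B} {J : Type}
    (b : GBasis (stdEven T) φ J) (hK : η[K] ≠ 0) (j : J) : b.w j ≠ 0 := by
  classical
  intro h
  have h1 := b.sum_eq_zero ((stdEven T).S (-b.k j)) {j} (Pi.single j (𝟙 _)) (by
    rw [Finset.sum_singleton, h, MonoidalPreadditive.tensor_zero, zero_comp,
      MonoidalPreadditive.zero_whiskerRight, comp_zero]) j (Finset.mem_singleton_self j)
  rw [Pi.single_eq_same] at h1
  exact hK ((((IsZero.iff_id_eq_zero _).2 h1).of_iso (α_ _ _ _ ≪≫ whiskerLeftIso K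
    ((stdEven T).mu _ _ 0 (add_neg_cancel _) ≪≫ (stdEven T).zero.symm) ≪≫ ρ_ K).symm).eq_of_tgt _ _)

section ser

variable {K : T} [MonObj K] [IsCommMonObj K] (a b : D.R ⟶ K) [IsMonHom a] [IsMonHom b]

theorem isHomog_ser (i : ℕ) : IsHomog K ((i + 1 : ℕ) : ℤ) ((ser a b).c (i + 1)) := by
  obtain ⟨x, hx⟩ := D.ev_wt 1 _ _ (Cob.isWt_X 0 i)
  exact ⟨_, by rw [ser_c, hx, HRing.map_of]⟩

theorem ser_congr {a' b' : D.R ⟶ K} [IsMonHom a'] [IsMonHom b'] (ha : a = a') (hb : b = b') :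
    ser a b = ser a' b' := by
  subst ha hb
  rfl

end ser

variable {H : T} [MonObj H] [IsCommMonObj H] (hU : MUUniv e D) (hH : Tr.IsHF 3 η[H])
  (u : D.R ⟶ H) [IsMonHom u]

/-- the class `ξ_1` -/
noncomputable def xi1 {K : T} [MonObj K] [IsCommMonObj K] (u : D.R ⟶ K) [IsMonHom u] :
    HRing (stdEven T) (K ⊗ K) := (ser (u ≫ inlM K K) (u ≫ inrM K K)).c 2

theorem map_xi1 {K N : T} [MonObj K] [IsCommMonObj K] [MonObj N] [IsCommMonObj N] (b : D.R ⟶ K)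
    [IsMonHom b] (f f' : K ⟶ N) [IsMonHom f] [IsMonHom f'] :
    HRing.map (descM f f') (xi1 b) = (ser (b ≫ f) (b ≫ f')).c 2 := by
  rw [xi1, ← InvSeries.c_map, ← ser_comp]
  congr 1
  exact ser_congr _ _ (by rw [Category.assoc, inlM_descM]) (by rw [Category.assoc, inrM_descM])

@[reassoc]
theorem inlM_ten {K K' N N' : T} [MonObj K] [MonObj K'] [MonObj N] [MonObj N'] (f : K ⟶ N)
    (f' : K' ⟶ N') [IsMonHom f'] : inlM K K' ≫ (f ⊗ₘ f') = f ≫ inlM N N' := by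
  rw [tensorHom_def', inlM_whiskerLeft_assoc, inlM_whiskerRight]

@[reassoc]
theorem inrM_ten {K K' N N' : T} [MonObj K] [MonObj K'] [MonObj N] [MonObj N'] (f : K ⟶ N)
    (f' : K' ⟶ N') [IsMonHom f] : inrM K K' ≫ (f ⊗ₘ f') = f' ≫ inrM N N' := by
  rw [tensorHom_def', inrM_whiskerLeft_assoc, inrM_whiskerRight]

theorem map_xi1' {K N : T} [MonObj K] [IsCommMonObj K] [MonObj N] [IsCommMonObj N] (b : D.R ⟶ K)
    [IsMonHom b] (f : K ⟶ N) [IsMonHom f] : HRing.map (f ⊗ₘ f) (xi1 b) = xi1 (b ≫ f) := by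
  have h : f ⊗ₘ f = descM (f ≫ inlM N N) (f ≫ inrM N N) := hom_ext_tensor
    (by rw [inlM_descM, inlM_ten]) (by rw [inrM_descM, inrM_ten])
  rw [HRing_map_congr' h, map_xi1, xi1]
  congr 1
  exact ser_congr _ _ (Category.assoc _ _ _).symm (Category.assoc _ _ _).symm

include hH

theorem cell_H (D : MUData T) : BigCell T 0 H :=
  P257.H762.bigCell_of_conn D.conn_unit fun k hk f => hH.conc k hk.ne f

include hU

theorem law_add {N : T} [MonObj N] [IsCommMonObj N] (f : H ⟶ N) [IsMonHom f] :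
    lawOf (u ≫ f) = P251.F.addLaw _ := by
  rw [lawOf_comp, lawOf_conc hU (BD.three_H hH) hH.conc u, map_addLaw]

theorem surj4 (g : (stdEven T).S 2 ⟶ H ⊗ H) : ∃ x : (stdEven T).S 2 ⟶ H ⊗ D.R, x ≫ H ◁ u = g := by
  obtain ⟨M, i, δ, hM⟩ := distinguished_cocone_triangle (((3 : ℕ) : ℤ) • 𝟙 (𝟙_ T))
  have ho := X.odd_base D (p := 3) (by norm_num) hM
  obtain ⟨o⟩ := X.QIn.quot (X.baseQIn D.R hM) (X.baseQIn_van D.R (by decide) hM ho)
  let _ := o.mon
  have _ := o.comm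
  have h1 : IsMonHom (X.iB D i) := o.hom
  have h2 := X.natCast_base D hM
  obtain ⟨k, hk, hk'⟩ := o.desc H u (by
      change (((3 : ℕ) : ℤ) • η[D.R]) ≫ u = 0
      rw [Preadditive.zsmul_comp, IsMonHom.one_hom]
      exact BD.three_H hH)
    (fun f => (BD.odd_H hH).h1 0 f) fun f hf =>
      X.eq_zero_of_two (p := 3) (by norm_num) (BD.three_H hH) f hf
  replace hk' : X.iB D i ≫ k = u := hk'
  obtain ⟨Q⟩ := nonempty_BD hU (n := 1) one_ne_zero
  obtain ⟨s, hs, -⟩ := Q.desc (D.R ⊗ M) (locO_three (three_of_ring (by exact_mod_cast h2)))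
    (X.iB D i) ho fun l hl => by
      obtain rfl : l = 0 := by omega
      rw [vv_zero, h2]
  obtain ⟨y, rfl⟩ := surj_of_cofIn D.conn_unit (CofIn.whiskerLeft H
    (fun Z hZ => (cell_H hH D).tensor hZ 5 (by norm_num)) (Q.cofIn_kappa hH (s ≫ k)))
    (by norm_num) g
  obtain ⟨_, E₁⟩ := Tr.dist_tensL (f := ((3 : ℕ) : ℤ) • 𝟙 (𝟙_ T)) hM D.R
  obtain ⟨d, E₂⟩ := Tr.dist_tensL E₁ H
  obtain ⟨x, hx⟩ := E₂.lift₃ (y ≫ H ◁ s) (by
    let c : (stdEven T).S 2 ≅ ((𝟙_ T)⟦(2 * 1 + 1 : ℤ)⟧)⟦(1 : ℤ)⟧ :=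
      (stdEven T).sphIso (Iso.refl _) 2 ≪≫
        (shiftFunctorAdd' T (2 * 1 + 1 : ℤ) 1 (2 * 2) rfl).app _
    obtain ⟨z, hz⟩ := (shiftFunctor T (1 : ℤ)).map_surjective (c.inv ≫ (y ≫ H ◁ s) ≫ d)
    have h3 : z = 0 := by
      rw [← cancel_mono (H ◁ (ρ_ D.R).hom), zero_comp]
      exact odd_R hU u (BD.odd_H hH) 1 _
    rw [← cancel_epi c.inv, ← hz, h3, Functor.map_zero, comp_zero])
  refine ⟨x ≫ H ◁ (ρ_ D.R).hom, ?_⟩
  rw [← hk', X.iB, Category.assoc, ← MonoidalCategory.whiskerLeft_comp, Category.assoc,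
    Iso.hom_inv_id_assoc, MonoidalCategory.whiskerLeft_comp, reassoc_of% hx,
    MonoidalCategory.whiskerLeft_comp]

theorem c_one_H : (ser (u ≫ inlM H H) (u ≫ inrM H H)).c 1 = 0 := by
  refine c_one_eq (three_ring (three_hom (inlM H H) (BD.three_H hH))) (ser_strict _ _) ?_
  rw [← law_add hU hH u (inlM H H), ser_smul, law_add hU hH, law_add hU hH]

theorem exists_zsmul (g : (stdEven T).S 2 ⟶ H ⊗ H) :
    ∃ m : ℤ, HRing.of (stdEven T) _ 2 g = m • xi1 u := by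
  obtain ⟨x, rfl⟩ := surj4 hU hH u g
  obtain ⟨t, y, h⟩ := exists_exp hU u 2 x
  have h1 : InvSeries.map (HRing.map (H ◁ u)) (ser (u ≫ inlM H D.R) (inrM H D.R)) =
      ser (u ≫ inlM H H) (u ≫ inrM H H) := by
    rw [← ser_comp]
    exact ser_congr _ _ (by rw [Category.assoc, inlM_whiskerLeft]) (inrM_whiskerLeft _)
  rw [← HRing.map_of, h, map_sum]
  refine (AddSubgroup.mem_zmultiples_iff.1 ((AddSubgroup.zmultiples (xi1 u)).sum_mem
    fun a _ => ?_)).imp fun _ h => h.symm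
  by_cases ha : Cob.degU a = 2
  · obtain ⟨m, hm⟩ := hH.gen ((stdEven T).zero.hom ≫
      ((stdEven T).castIso 0 (2 - Cob.degU a) (by omega)).hom ≫ y a)
    have h2 : HRing.of (stdEven T) H _ (y a) = m := by
      rw [intCast_eq, ← hm, Iso.inv_hom_id_assoc, of_cast]
    obtain ⟨m', hm'⟩ := mono_two (c_one_H hU hH u) ha
    refine ⟨m * m', ?_⟩
    beta_reduce
    rw [h2, map_intCast, map_mul, map_intCast, map_finsuppProd, mul_smul, xi1, ← hm', mono,
      zsmul_eq_mul, mul_comm]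
    congr 1
    exact Finsupp.prod_congr fun i _ => by rw [map_pow, ← h1, InvSeries.c_map]
  · have h2 : y a = 0 := by
      rw [← cancel_epi ((stdEven T).sphIso (Iso.refl _) _).inv, comp_zero]
      exact hH.conc _ (by omega) _
    rw [h2, of_zero, map_zero, mul_zero, map_zero]
    exact zero_mem _

include u in
/-- A chain of orientations with additive law which differ by `x + a x ^ 3`, `a` not nilpotent. -/
theorem exists_chain : ∃ (N : T) (_ : MonObj N) (_ : IsCommMonObj N) (a : HRing (stdEven T) N)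
    (v : ℕ → (D.R ⟶ N)) (_ : ∀ i, IsMonHom (v i)), (3 : ℤ) • η[N] = 0 ∧ X.Odd0 N ∧
      (∀ k : ℕ, a ^ k ≠ 0) ∧ ∀ i, lawOf (v i) = P251.F.addLaw _ ∧ ser (v i) (v (i + 1)) = gs a := by
  have h3 := three_hom (inlM H D.R) (BD.three_H hH)
  let a := (ser (u ≫ inlM H D.R) (inrM H D.R)).c 2
  have ha : IsHomog (H ⊗ D.R) 2 a := isHomog_ser _ _ 1
  have step : ∀ v : {v : D.R ⟶ H ⊗ D.R // IsMonHom v}, ∃ v' : {v : D.R ⟶ H ⊗ D.R // IsMonHom v},
      haveI := v.2; haveI := v'.2; ser v.1 v'.1 = gs a := fun v => by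
    have := v.2
    obtain ⟨v', h, h'⟩ := exists_of_ser hU v.1 (fun m => if m = 1 then a else 0) fun m => by
      split_ifs with hm
      · subst hm
        exact ha
      · exact ⟨0, (of_zero _).symm⟩
    exact ⟨⟨v', h⟩, h'⟩
  choose nx hnx using step
  let v : ℕ → {v : D.R ⟶ H ⊗ D.R // IsMonHom v} := fun i =>
    Nat.rec ⟨u ≫ inlM H D.R, inferInstance⟩ (fun _ v => nx v) i
  have inst : ∀ i, IsMonHom (v i).1 := fun i => (v i).2
  refine ⟨H ⊗ D.R, inferInstance, inferInstance, a, fun i => (v i).1, inst, h3,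
    odd_R hU u (BD.odd_H hH), fun k hk => ?_, fun i => ⟨?_, hnx (v i)⟩⟩
  · obtain ⟨b, -, hw⟩ := D.exists_basis_of u hU
    have h2 : D.toKR u = pairM (u ≫ inlM H D.R) (inrM H D.R) :=
      eq_pairM (D.v_zero_toKR u) (D.v_one_toKR u)
    refine basis_ne b (fun h => absurd ((hH.ord 1).1 (by rw [h, smul_zero])) (by norm_num))
      (Finsupp.single 1 k) (of_injective ?_)
    rw [hw, HRing_map_congr' h2, Cob.last, Finsupp.mapDomain_single, ← MvPolynomial.X_pow_eq_monomial,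
      map_pow, map_pow, of_zero, ← hk]
    exact congrArg (· ^ k) (ser_c _ _ 1).symm
  · induction i with
    | zero => exact law_add hU hH u _
    | succ i ih =>
      have := inst (i + 1)
      have h : ser (v i).1 (v (i + 1)).1 = gs a := hnx (v i)
      rw [← ser_smul (v i).1, h, ih, gs_smul (three_ring h3)]

omit hH in
theorem cell_B {n : ℕ} (hn : n ≠ 0) (Q : BD D hU n) : BigCell T 0 Q.B :=
  P257.H762.bigCell_of_conn D.conn_unit fun k hk f => Q.van' hk.ne (by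
    have h4 : (3 : ℤ) ≤ 3 ^ n := by exact_mod_cast Nat.le_self_pow hn 3
    omega) f

theorem cof_two {n : ℕ} (hn : n ≠ 0) (Q : BD D hU n) (κ : Q.B ⟶ H) [IsMonHom κ] :
    CofIn (BigCell T (2 * (3 ^ n - 1) + 1)) (κ ⊗ₘ κ) :=
  cofIn_tensor (Q.cofIn_kappa hH κ) (Q.cofIn_kappa hH κ) (cell_B hU hn Q) (cell_H hH D)

theorem xi1_pow_ne (k : ℕ) : xi1 u ^ k ≠ 0 := by
  intro h
  obtain ⟨N, _, _, a, v, _, h3, ho, ha, hv⟩ := exists_chain hU hH u
  obtain ⟨Q⟩ := nonempty_BD hU (n := k + 1 + 1) (by omega)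
  obtain ⟨κ, _, rfl⟩ := Q.exists_kappa hH u
  obtain ⟨x, hx⟩ := IsHomog.pow (isHomog_ser (Q.b ≫ inlM _ _) (Q.b ≫ inrM _ _) 1) k
  replace hx : xi1 Q.b ^ k = _ := hx
  have h1 : x = 0 := inj_of_cofIn D.conn_unit (cof_two hU hH (by omega) Q κ) (by
      have h4 : ((k + 1 : ℕ) : ℤ) < 3 ^ (k + 1) := by
        exact_mod_cast Nat.lt_pow_self (by norm_num)
      rw [pow_succ]
      push_cast at h4 ⊢
      omega) (of_injective (by
    rw [← HRing.map_of, ← hx, map_pow, map_xi1', h, zero_comp, of_zero]))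
  obtain ⟨f, _, hf⟩ := Q.desc_add h3 ho (v 0) (hv 0).1
  obtain ⟨f', _, hf'⟩ := Q.desc_add h3 ho (v 1) (hv 1).1
  have h2 := congrArg (HRing.map (descM f f')) hx
  rw [h1, of_zero, map_zero, map_pow, map_xi1, ser_congr _ _ hf hf', (hv 0).2, gs_c] at h2
  exact ha k h2

theorem exists_unit {g : (stdEven T).S 2 ⟶ H ⊗ H} (hg : g ≠ 0) :
    ∃ m m' : ℤ, ¬ (3 : ℤ) ∣ m ∧ ¬ (3 : ℤ) ∣ m' ∧ HRing.of (stdEven T) _ 2 g = m • xi1 u ∧
      xi1 u = m' • HRing.of (stdEven T) _ 2 g := by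
  obtain ⟨m, hm⟩ := exists_zsmul hU hH u g
  have h3 : (3 : ℤ) • xi1 u = 0 := by
    rw [zsmul_eq_mul, Int.cast_ofNat, three_ring (three_hom (inlM H H) (BD.three_H hH)), zero_mul]
  have h1 : ¬ (3 : ℤ) ∣ m := by
    rintro ⟨l, rfl⟩
    rw [mul_comm, mul_smul, h3, smul_zero, ← of_zero 2] at hm
    exact hg (of_injective hm)
  obtain ⟨x, y, hxy⟩ := (Int.prime_three.irreducible.coprime_iff_not_dvd.2 h1 : IsCoprime 3 m)
  refine ⟨m, y, h1, fun h => ?_, hm, ?_⟩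
  · exact absurd (hxy ▸ dvd_add (dvd_mul_left 3 x) (h.mul_right m) : (3 : ℤ) ∣ 1) (by norm_num)
  · rw [hm, smul_smul, ← sub_eq_iff_eq_add'.2 hxy.symm, sub_smul, one_smul, mul_smul, h3,
      smul_zero, sub_zero]

theorem th1_t1 {t1 : Cob Laz 1} (ht : IsT1 3 t1) : th1 D u t1 = (8 : ℤ) • xi1 u := by
  obtain ⟨q, rfl⟩ := Det.t1_eq ht
  have h : Am.lift ![u ≫ inlM H H, u ≫ inrM H H] = pairM (u ≫ inlM H H) (u ≫ inrM H H) :=
    eq_pairM (Am.v_lift _ _) (Am.v_lift _ _)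
  have h1 : ∀ i, th1 D u (MvPolynomial.X (0, i)) =
      (ser (u ≫ inlM H H) (u ≫ inrM H H)).c (i + 1) := fun i => by
    rw [ser_c, ← HRing_map_congr' h]
    rfl
  rw [map_add, map_mul, map_mul, h1, h1, zero_add, c_one_H hU hH u, zero_mul, add_zero, map_ofNat,
    zsmul_eq_mul, Int.cast_ofNat, xi1]

end general

open Vale.Agent.P251.St

theorem exists_MU (T : SHCat) (S : Susp T) :
    ∃ D : MUData T.C, MUUniv (lineIso S.toSpaceFunctor) D := by
  have := locallySmall_self.{0} T.C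
  obtain ⟨M⟩ := nonempty_MUMon S.toSpaceFunctor (stdEven T.C) (lineIso S.toSpaceFunctor)
  obtain ⟨b⟩ := M.nonempty_muBasis
  exact ⟨_, M.muUniv b⟩

theorem s4_ne {T : SHCat} {Y : T.C} {ξ : P236Z.St.sph T 4 ⟶ Y} (h : ξ ≠ 0) :
    (s4 T).hom ≫ ξ ≠ 0 := fun h' => h ((cancel_epi (s4 T).hom).1 (h'.trans comp_zero.symm))

theorem pi4 : PI4 := by
  intro T S H _ _ hH
  have := locallySmall_self.{0} T.C
  obtain ⟨D, hU⟩ := exists_MU T S
  obtain ⟨u, _⟩ := Dt.exists_thom D hH.conc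
  obtain ⟨x, hx⟩ := isHomog_ser (u ≫ inlM H H) (u ≫ inrM H H) 1
  replace hx : xi1 u = HRing.of (stdEven T.C) _ 2 x := hx
  refine ⟨(s4 T).inv ≫ x, fun h => xi1_pow_ne hU hH u 1 ?_, fun g => ?_⟩
  · rw [pow_one, hx, (cancel_epi (s4 T).inv).1 (h.trans comp_zero.symm), of_zero]
  · obtain ⟨m, hm⟩ := exists_zsmul hU hH u ((s4 T).hom ≫ g)
    rw [hx, ← of_zsmul] at hm
    exact ⟨m, by rw [← Preadditive.comp_zsmul, ← of_injective hm, Iso.inv_hom_id_assoc]⟩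

theorem tau : TAU := by
  intro T S H _ _ hH D hU u _ t1 ht ξ hξ
  have := locallySmall_self.{0} T.C
  obtain ⟨m, m', -, h1, -, h2⟩ := exists_unit hU hH u (s4_ne hξ)
  refine ⟨8 * m', fun h => h1 ((Int.prime_three.dvd_or_dvd h).resolve_left (by norm_num)), ?_⟩
  rw [th1_t1 hU hH u ht, h2, smul_smul]

theorem hi3 : HI3 := by
  intro T S H _ _ hH ξ hξ j h
  have := locallySmall_self.{0} T.C
  obtain ⟨D, hU⟩ := exists_MU T S
  obtain ⟨u, _⟩ := Dt.exists_thom D hH.conc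
  obtain ⟨m, m', -, -, -, h2⟩ := exists_unit hU hH u (s4_ne hξ)
  refine xi1_pow_ne hU hH u (3 ^ j) ?_
  rw [h2, smul_pow, ← of_frob, h, comp_zero, of_zero, smul_zero]

end Vale.Agent.P236K.St
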