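import Vale.Agent.P236K.St.Defs
import Vale.Agent.P236Z.Tr.Defs

/-!
# P236, block St: the final statement and the interfaces to the other blocks
-/

open CategoryTheory MonoidalCategory MonObj Limits Pretriangulated

universe v u

namespace Vale.Agent.P236K.St

open Vale.Agent.P251.St Vale.Agent.P251.St.SHCat Vale.Agent.P236Z.St Vale.Agent.P236Z

/-- `u` is a Hopf invariant of `f : W ⟶ Q` relative to `q : Q ⟶ H`: it is the image of a homology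
class of the cone of `f` under an extension of `q` to the cone. -/
def Hopf {T : Type u} [Category.{v} T] [Preadditive T] [HasZeroObject T] [HasShift T ℤ]
    [∀ n : ℤ, (shiftFunctor T n).Additive] [Pretriangulated T] [MonoidalCategory T]
    {H Q W P : T} (q : Q ⟶ H) (f : W ⟶ Q) (u : P ⟶ H ⊗ H) : Prop :=
  ∃ (C : T) (i : Q ⟶ C) (p : C ⟶ W⟦(1 : ℤ)⟧) (r : C ⟶ H) (y : P ⟶ H ⊗ C),
    P251.H.Dist f i p ∧ i ≫ r = q ∧ y ≫ H ◁ r = u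

/-- The final statement. -/
def FINAL : Prop :=
  (∃ T : SHCat, Nonempty (Susp T)) ∧ ∀ (T : SHCat) (_ : Susp T),
    (∃ (H : T.C) (_ : MonObj H) (_ : IsCommMonObj H), IsHF 3 η[H]) ∧
    ∀ (H : T.C) [MonObj H] [IsCommMonObj H], IsHF 3 η[H] → Nonempty (AdamsTower η[H]) ∧
      (∃ ξ : Hom (sph T 4) (ten H H), ξ ≠ 0 ∧ ∀ g : Hom (sph T 4) (ten H H), ∃ m : ℤ, g = m • ξ) ∧
      ∀ (A : AdamsTower η[H]) (ξ : Hom (sph T 4) (ten H H)), ξ ≠ 0 → ∀ j : ℕ,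
        (∃ b, IsB A ξ j b) ∧ ∀ b, IsB A ξ j b →
          (Survives A b ↔ j = 0 ∨ j = 2 ∨ j = 3) ∧
          (Survives A b → ∃ θ : Hom (sph T (stem j)) T.one, addOrderOf θ = 3 ∧ Detects A b θ)

/-- INPUT for `j = 2, 3`: a map `S^n ∧ M ⟶ S` (`M = S / 3`, `n = stem j`) which does not have Adams
filtration two. -/
def HopfM (j : ℕ) : Prop :=
  ∀ (T : SHCat) (_ : Susp T) (H : T.C) (e : 𝟙_ T.C ⟶ H), Tr.IsHF 3 e →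
    ∀ (M : T.C) (i : 𝟙_ T.C ⟶ M) (δ : M ⟶ (𝟙_ T.C)⟦(1 : ℤ)⟧),
      P251.H.Dist ((3 : ℤ) • 𝟙 (𝟙_ T.C)) i δ →
      ∃ f : (𝟙_ T.C)⟦stem j⟧ ⊗ M ⟶ 𝟙_ T.C, ¬ Tr.AF e 2 f

/-- The dual form of `HopfM` (equivalent, block St): a class of `π_{n + 1} M` which does not have
Adams filtration two. -/
def HopfM' (j : ℕ) : Prop :=
  ∀ (T : SHCat) (_ : Susp T) (H : T.C) (e : 𝟙_ T.C ⟶ H), Tr.IsHF 3 e →
    ∀ (M : T.C) (i : 𝟙_ T.C ⟶ M) (δ : M ⟶ (𝟙_ T.C)⟦(1 : ℤ)⟧),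
      P251.H.Dist ((3 : ℤ) • 𝟙 (𝟙_ T.C)) i δ →
      ∃ g : (𝟙_ T.C)⟦stem j + 1⟧ ⟶ M, ¬ Tr.AF e 2 g

/-- INPUT for `j = 1`: every class of the stem `34` has Adams filtration at least three. -/
def NoOne : Prop :=
  ∀ (T : SHCat) (_ : Susp T) (H : T.C) (e : 𝟙_ T.C ⟶ H), Tr.IsHF 3 e →
    ∀ θ : (𝟙_ T.C)⟦stem 1⟧ ⟶ 𝟙_ T.C, Tr.AF e 3 θ

/-- What block St proves. -/
def ST : Prop := HopfM 2 → HopfM 3 → NoOne → FINAL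

/-- OUTPUT (HI1): a nonzero Hopf invariant in a nonzero degree excludes filtration two. -/
def HI1 : Prop :=
  ∀ (T : SHCat) (H : T.C) [MonObj H], Tr.IsHF 3 η[H] → ∀ (W : T.C) (f : W ⟶ 𝟙_ T.C),
    (∀ g : W⟦(1 : ℤ)⟧ ⟶ H, g = 0) → ∀ (P : T.C) (u : P ⟶ H ⊗ H), (∀ g : P ⟶ H, g = 0) →
      Hopf η[H] f u → u ≠ 0 → ¬ Tr.AF η[H] 2 f

/-- OUTPUT (HI2): the Hopf invariant of a map as in `HopfM j` is `ξ ^ (3 ^ (j + 1))`. -/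
def HI2 : Prop :=
  ∀ (T : SHCat) (_ : Susp T) (H : T.C) [MonObj H] [IsCommMonObj H], Tr.IsHF 3 η[H] →
    ∀ (M : T.C) (i : 𝟙_ T.C ⟶ M) (δ : M ⟶ (𝟙_ T.C)⟦(1 : ℤ)⟧),
      P251.H.Dist ((3 : ℤ) • 𝟙 (𝟙_ T.C)) i δ → ∀ (ξ : Hom (sph T 4) (ten H H)), ξ ≠ 0 →
      ∀ (j : ℕ) (f : (𝟙_ T.C)⟦stem j⟧ ⊗ M ⟶ 𝟙_ T.C), ¬ Tr.AF η[H] 2 f →
        Hopf η[H] f (frob ξ (j + 1))

/-- OUTPUT (HI3): the powers of `ξ` do not vanish. -/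
def HI3 : Prop :=
  ∀ (T : SHCat) (_ : Susp T) (H : T.C) [MonObj H] [IsCommMonObj H], Tr.IsHF 3 η[H] →
    ∀ (ξ : Hom (sph T 4) (ten H H)), ξ ≠ 0 → ∀ j : ℕ, frob ξ j ≠ 0

end Vale.Agent.P236K.St
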