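import Vale.Agent.P236K.St.NB

/-!
# P236, block St: `b_j` is a cocycle for the first differential; the strong final statement
-/

open CategoryTheory MonoidalCategory MonObj Limits Pretriangulated

set_option linter.unusedSectionVars false

universe u

namespace Vale.Agent.P236K.St

open Vale.Agent.P251 Vale.Agent.P251.S Vale.Agent.P251.T Vale.Agent.P251.M Vale.Agent.P251.F
  Vale.Agent.P251.I Vale.Agent.P251.H EvenSpheres Vale.Agent.P257.H80 Vale.Agent.P236K.St5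
  Vale.Agent.P236Z

theorem pow3_add {A : Type} [CommRing A] (h3 : (3 : A) = 0) (x y : A) (j : ℕ) :
    (x + y) ^ 3 ^ j = x ^ 3 ^ j + y ^ 3 ^ j := by
  induction j with
  | zero => simp
  | succ j ih => rw [pow_succ, pow_mul, pow_mul, pow_mul, ih, cube_add h3]

theorem c_two_mul {A : Type} [CommRing A] {s t : InvSeries A} (hs : s.c 0 = 1) (ht : t.c 0 = 1)
    (h : s.c 1 = 0) : (s * t).c 2 = t.c 2 + s.c 2 := by
  have h1 : PowerSeries.coeff 1 s.val = 1 := hs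
  have h2 : PowerSeries.coeff 1 t.val = 1 := ht
  have h3 : PowerSeries.coeff 2 s.val = 0 := h
  refine (Det.coeff3_subst t.cc s.val).trans ?_
  rw [h1, h2, h3, mul_zero, zero_mul, zero_mul, add_zero, _root_.one_mul, one_pow, _root_.mul_one]
  rfl

section general

variable {T : Type u} [Category.{0} T] [Preadditive T] [HasZeroObject T]
    [HasShift T ℤ] [∀ n : ℤ, (shiftFunctor T n).Additive] [Pretriangulated T] [IsTriangulated T]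
    [MonoidalCategory T] [SymmetricCategory T] [TensorTriangulated T] [MonoidalClosed T]
    [HasCoproducts.{0} T] [HasProducts.{0} T] [StableCat T] [LocallySmall.{0} T]

section tower

variable {H X₁ X₂ X₃ : T} [MonObj H] {g₀ : X₁ ⟶ 𝟙_ T} {d₀ : H ⟶ X₁⟦(1 : ℤ)⟧} {g₁ : X₂ ⟶ X₁}
  {d₁ : H ⊗ X₁ ⟶ X₂⟦(1 : ℤ)⟧} {g₂ : X₃ ⟶ X₂} {d₂ : H ⊗ X₂ ⟶ X₃⟦(1 : ℤ)⟧}

theorem coc_pr2 (D₀ : Dist g₀ η[H] d₀) (D₁ : Dist g₁ (unitMap H X₁) d₁)
    (D₂ : Dist g₂ (unitMap H X₂) d₂) {P : T} (z : P ⟶ H ⊗ (H ⊗ H))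
    (hz : z ≫ inrM H (H ⊗ (H ⊗ H)) + z ≫ H ◁ (H ◁ inrM H H) =
      z ≫ H ◁ inrM H (H ⊗ H) + z ≫ H ◁ (H ◁ inlM H H)) :
    z ≫ pr2 d₀ d₁ ≫ ((d₂ ≫ (unitMap H X₃)⟦(1 : ℤ)⟧')⟦(1 : ℤ)⟧')⟦(1 : ℤ)⟧' = 0 := by
  have h1 : unitMap H (H ⊗ H) ≫ pr2 d₀ d₁ ≫ (d₂⟦(1 : ℤ)⟧')⟦(1 : ℤ)⟧' = 0 := by
    rw [pr2, Category.assoc, ← unitMap_nat_assoc, Category.assoc (csh _ _ _).hom,
      unitMap_csh_assoc, ← Functor.map_comp, ← Functor.map_comp, unitMap_csh_assoc, ← Functor.map_comp, D₂.zero₂₃,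
      Functor.map_zero, Functor.map_zero, comp_zero]
  have h2 : H ◁ unitMap H H ≫ pr2 d₀ d₁ = 0 := by
    rw [pr2, ← MonoidalCategory.whiskerLeft_comp_assoc, ← unitMap_nat_assoc, unitMap_csh_assoc,
      ← Functor.map_comp, D₁.zero₂₃, Functor.map_zero, comp_zero,
      MonoidalPreadditive.whiskerLeft_zero, zero_comp]
  have h3 : H ◁ inlM H H ≫ pr2 d₀ d₁ = 0 := by
    rw [pr2, ← MonoidalCategory.whiskerLeft_comp_assoc, inlM, Category.assoc,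
      ← MonoidalCategory.whiskerLeft_comp_assoc, D₀.zero₂₃, MonoidalPreadditive.whiskerLeft_zero,
      zero_comp, comp_zero, MonoidalPreadditive.whiskerLeft_zero, zero_comp]
  have h4 := congrArg (· ≫ H ◁ (pr2 d₀ d₁ ≫ (d₂⟦(1 : ℤ)⟧')⟦(1 : ℤ)⟧')) hz
  simp only [Preadditive.add_comp, Category.assoc, ← MonoidalCategory.whiskerLeft_comp] at h4
  change z ≫ unitMap H _ ≫ _ + z ≫ H ◁ (H ◁ unitMap H H ≫ _) =
    z ≫ H ◁ (unitMap H _ ≫ _) + _ at h4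
  rw [h1, reassoc_of% h2, reassoc_of% h3, zero_comp, MonoidalPreadditive.whiskerLeft_zero,
    comp_zero, add_zero, add_zero, ← unitMap_nat, Category.assoc] at h4
  rw [Functor.map_comp, Functor.map_comp, ← unitMap_csh, Functor.map_comp, ← unitMap_csh,
    Functor.map_comp, Functor.map_comp, Category.assoc, ← unitMap_csh, Category.assoc,
    reassoc_of% h4, zero_comp]

end tower

variable {F : SpaceFunctor T} {e : F.S.obj CCF ≅ (stdEven T).L} {D : MUData T}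
  {H : T} [MonObj H] [IsCommMonObj H] (hU : MUUniv e D) (hH : Tr.IsHF 3 η[H])
  (u : D.R ⟶ H) [IsMonHom u] {N : T} [MonObj N] [IsCommMonObj N]

/-- the value of `(m ξ_1) ^ (3 ^ j)` on a pair of vertices -/
noncomputable def edge (m : ℤ) (j : ℕ) (f f' : H ⟶ N) [IsMonHom f] [IsMonHom f'] :
    HRing (stdEven T) N := (m • (ser (u ≫ f) (u ≫ f')).c 2) ^ 3 ^ j

theorem map_cobR_edge (m : ℤ) (j : ℕ) (δ : H ⊗ (H ⊗ H) ⟶ N) [IsMonHom δ] (f₀ f₁ f₂ : H ⟶ N)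
    [IsMonHom f₀] [IsMonHom f₁] [IsMonHom f₂] (h₀ : inlM _ _ ≫ δ = f₀)
    (h₁ : inlM _ _ ≫ inrM _ _ ≫ δ = f₁) (h₂ : inrM _ _ ≫ inrM _ _ ≫ δ = f₂) :
    HRing.map δ (cobR j (m • xi1 u)) = edge u m j f₀ f₁ * edge u m j f₁ f₂ ^ 2 +
      edge u m j f₀ f₁ ^ 2 * edge u m j f₁ f₂ := by
  have h : δ = descM f₀ (descM f₁ f₂) := hom_ext_tensor (by rw [inlM_descM, h₀])
    (hom_ext_tensor (by rw [inrM_descM, inlM_descM, h₁]) (by rw [inrM_descM, inrM_descM, h₂]))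
  rw [HRing_map_congr' h, desc_cobR, map_zsmul, map_zsmul, map_xi1, map_xi1]
  rfl

include hU hH

theorem edge_add (m : ℤ) (j : ℕ) (f₀ f₁ f₂ : H ⟶ N) [IsMonHom f₀] [IsMonHom f₁] [IsMonHom f₂] :
    edge u m j f₀ f₂ = edge u m j f₀ f₁ + edge u m j f₁ f₂ := by
  have h3 := three_ring (three_hom f₀ (BD.three_H hH))
  rw [edge, ser_trans _ (u ≫ f₁), c_two_mul (ser_strict _ _) (ser_strict _ _)
    (c_one_eq h3 (ser_strict _ _) ?_), smul_add, pow3_add h3, edge, edge]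
  rw [← law_add hU hH u f₁, ser_smul, law_add hU hH, law_add hU hH]

theorem coc_cobR (m : ℤ) (j : ℕ) {w : ℤ} (z : (stdEven T).S w ⟶ H ⊗ (H ⊗ H))
    (hz : HRing.of (stdEven T) _ w z = cobR j (m • xi1 u)) :
    z ≫ inrM H (H ⊗ (H ⊗ H)) + z ≫ H ◁ (H ◁ inrM H H) =
      z ≫ H ◁ inrM H (H ⊗ H) + z ≫ H ◁ (H ◁ inlM H H) := by
  let p₀ : H ⟶ H ⊗ (H ⊗ (H ⊗ H)) := inlM _ _
  let p₁ : H ⟶ H ⊗ (H ⊗ (H ⊗ H)) := inlM _ _ ≫ inrM _ _
  let p₂ : H ⟶ H ⊗ (H ⊗ (H ⊗ H)) := inlM _ _ ≫ inrM _ _ ≫ inrM _ _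
  let p₃ : H ⟶ H ⊗ (H ⊗ (H ⊗ H)) := inrM _ _ ≫ inrM _ _ ≫ inrM _ _
  apply of_injective
  rw [of_add, of_add, ← HRing.map_of, ← HRing.map_of, ← HRing.map_of, ← HRing.map_of, hz,
    map_cobR_edge u m j _ p₁ p₂ p₃ rfl rfl rfl,
    map_cobR_edge u m j _ p₀ p₁ p₃ (inlM_whiskerLeft _)
      (by rw [inrM_whiskerLeft, inlM_whiskerLeft_assoc])
      (by rw [inrM_whiskerLeft, inrM_whiskerLeft_assoc]),
    map_cobR_edge u m j _ p₀ p₂ p₃ (inlM_whiskerLeft _) (by rw [inrM_whiskerLeft])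
      (by rw [inrM_whiskerLeft]),
    map_cobR_edge u m j _ p₀ p₁ p₂ (inlM_whiskerLeft _)
      (by rw [inrM_whiskerLeft, inlM_whiskerLeft_assoc])
      (by rw [inrM_whiskerLeft, inrM_whiskerLeft_assoc]),
    edge_add hU hH u m j p₁ p₂ p₃, edge_add hU hH u m j p₀ p₁ p₂]
  ring

end general

open Vale.Agent.P251.St Vale.Agent.P251.St.SHCat Vale.Agent.P236Z.St

/-- `b_j` is a cocycle for the first differential. -/
theorem IsB.coc {T : SHCat} (S : Susp T) {H : T.C} [MonObj H] [IsCommMonObj H]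
    (hH : Tr.IsHF 3 η[H]) (A : AdamsTower η[H]) {ξ : sph T 4 ⟶ H ⊗ H} {j : ℕ}
    {b : sph T (stem j) ⟶ H ⊗ A.X 2} (hb : IsB A ξ j b) :
    b ≫ A.d 2 ≫ (hur η[H] (A.X 3))⟦(1 : ℤ)⟧' = 0 := by
  have := locallySmall_self.{0} T.C
  obtain ⟨D, hU⟩ := exists_MU T S
  obtain ⟨u, _⟩ := Dt.exists_thom D hH.conc
  obtain ⟨m, h⟩ := exists_zsmul hU hH u ((s4 T).hom ≫ ξ)
  obtain ⟨l, -, hl⟩ := hb.eq A ξ j S.toSpaceFunctor
  have h1 := coc_pr2 (dist_dz A) (Top.tower_dist A 1) (Top.tower_dist A 2) _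
    (coc_cobR hU hH u m j _ ((of_cob ξ j).trans (by rw [h])))
  apply (shiftFunctor T.C (1 : ℤ)).map_injective
  apply (shiftFunctor T.C (1 : ℤ)).map_injective
  rw [Functor.map_zero, Functor.map_zero, ← cancel_epi (ssIso T j).hom, comp_zero,
    Functor.map_comp, Functor.map_comp, reassoc_of% hl, Preadditive.zsmul_comp, proj_eq,
    Top.hur_eq, Category.assoc, Category.assoc]
  rw [Category.assoc] at h1
  exact (congrArg (l • ·) h1).trans (smul_zero _)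

/-- The final statement, with the description of `b_j` as a nonzero class of `E_2`. -/
def FINAL' : Prop :=
  (∃ T : SHCat, Nonempty (Susp T)) ∧ ∀ (T : SHCat) (_ : Susp T),
    (∃ (H : T.C) (_ : MonObj H) (_ : IsCommMonObj H), IsHF 3 η[H]) ∧
    ∀ (H : T.C) [MonObj H] [IsCommMonObj H], IsHF 3 η[H] → Nonempty (AdamsTower η[H]) ∧
      (∃ ξ : Hom (sph T 4) (ten H H), ξ ≠ 0 ∧ ∀ g : Hom (sph T 4) (ten H H), ∃ m : ℤ, g = m • ξ) ∧
      ∀ (A : AdamsTower η[H]) (ξ : Hom (sph T 4) (ten H H)), ξ ≠ 0 → ∀ j : ℕ,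
        (∃ b, IsB A ξ j b) ∧ ∀ b, IsB A ξ j b →
          comp b (comp (A.d 2) ((hur η[H] (A.X 3))⟦(1 : ℤ)⟧')) = 0 ∧ ¬ A.IsBoundary 2 b ∧
          (Survives A b ↔ j = 0 ∨ j = 2 ∨ j = 3) ∧
          (Survives A b → ∃ θ : Hom (sph T (stem j)) T.one, addOrderOf θ = 3 ∧ Detects A b θ)

theorem final' (h : FINAL) : FINAL' :=
  ⟨h.1, fun T S => ⟨(h.2 T S).1, fun H _ _ hH => ⟨((h.2 T S).2 H hH).1, ((h.2 T S).2 H hH).2.1,
    fun A ξ hξ j => ⟨exists_isB A ξ j, fun b hb => ⟨hb.coc S ((Top.isHF_iff 3).1 hH) A,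
      nb j T S H ((Top.isHF_iff 3).1 hH) A ξ hξ b hb,
      (((h.2 T S).2 H hH).2.2 A ξ hξ j).2 b hb⟩⟩⟩⟩⟩

end Vale.Agent.P236K.St
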