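import Vale.Agent.P236Z.Top.St

/-!
# P236, statement layer: the classes `b_j` of the mod three Adams spectral sequence

This file contains the definitions which enter the final statement (besides `P251/T/Axioms`,
`P251/St/Base` and `P236Z/Top/St`).  `H` is a ring spectrum with unit `η[H]` and product `μ[H]`;
`H ∧ H ∧ H` carries the product ring structure (the instance of Mathlib).
-/

open CategoryTheory MonoidalCategory MonObj

namespace Vale.Agent.P236K.St

open Vale.Agent.P251.St Vale.Agent.P251.St.SHCat Vale.Agent.P236Z.St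

variable {T : SHCat}

/-- the stem `4 * 3 ^ (j + 1) - 2` of `b_j` -/
abbrev stem (j : ℕ) : ℤ := 4 * 3 ^ (j + 1) - 2

/-- `S^4`, `S^4 ∧ S^4 ∧ S^4`, … : `bigS T j` is a sphere of dimension `4 * 3 ^ j`. -/
def bigS (T : SHCat) : ℕ → T.C
  | 0 => sph T 4
  | j + 1 => ten (bigS T j) (ten (bigS T j) (bigS T j))

/-- the product `x y z` of three classes of a ring spectrum `R` -/
def mul3 {R A : T.C} [MonObj R] (x y z : Hom A R) : Hom (ten A (ten A A)) R :=
  comp (tenHom x (tenHom y z)) (comp (tenHom (ident R) μ[R]) μ[R])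

/-- the power `x ^ (3 ^ j)` of a class `x ∈ π_4 R` -/
def frob {R : T.C} [MonObj R] (x : Hom (sph T 4) R) : ∀ j : ℕ, Hom (bigS T j) R
  | 0 => x
  | j + 1 => mul3 (frob x j) (frob x j) (frob x j)

/-- The cobar cochain `[a | a ^ 2] + [a ^ 2 | a] = x y y + x x y` in `π_* (H ∧ H ∧ H)`, where
`a = ξ ^ (3 ^ j)`, `x = [a | 1]` is `a` in the first two factors and `y = [1 | a]` is `a` in the
last two factors. -/
noncomputable def cob {H : T.C} [MonObj H] (ξ : Hom (sph T 4) (ten H H)) (j : ℕ) :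
    Hom (bigS T (j + 1)) (ten H (ten H H)) :=
  let x := frob (comp ξ (tenHom (ident H) (comp (ρ_ H).inv (tenHom (ident H) η[H])))) j
  let y := frob (comp ξ (hur η[H] (ten H H))) j
  mul3 x y y + mul3 x x y

/-- the canonical isomorphism `H ∧ Σ Y ⟶ Σ (H ∧ Y)` -/
def exch (H Y : T.C) : Hom (ten H (sus Y)) (sus (ten H Y)) :=
  comp (tenHom (ident H) (T.tensor.e Y).inv) (comp (α_ H Y (sus T.one)).inv (tenSus (ten H Y)))

variable {H : T.C} {e : Hom T.one H} (A : AdamsTower e)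

/-- The projection `H ∧ H ∧ H ⟶ Σ Σ (H ∧ X 2)` of the cobar complex onto `E_1^2`, induced by the
connecting maps `H = H ∧ X 0 ⟶ Σ X 1` (third factor) and `H ∧ X 1 ⟶ Σ X 2`. -/
def proj : Hom (ten H (ten H H)) (sus (sus (ten H (A.X 2)))) :=
  let d₀ : Hom H (sus (A.X 1)) := comp (ρ_ H).inv (comp (tenHom (ident H) A.base.inv) (A.d 0))
  let d₁ : Hom (ten H H) (sus (sus (A.X 2))) :=
    comp (tenHom (ident H) d₀) (comp (exch H (A.X 1)) ((A.d 1)⟦(1 : ℤ)⟧'))
  comp (tenHom (ident H) d₁) (comp (exch H (sus (A.X 2))) ((exch H (A.X 2))⟦(1 : ℤ)⟧'))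

/-- `b ∈ E_1^2 = π_* (H ∧ X 2)` is the class `b_j`: its double suspension is the projection of the
cochain `cob ξ j` (the identification `c` of spheres is unique up to sign). -/
def IsB [MonObj H] (ξ : Hom (sph T 4) (ten H H)) (j : ℕ)
    (b : Hom (sph T (stem j)) (ten H (A.X 2))) : Prop :=
  ∃ c : sus (sus (sph T (stem j))) ≅ bigS T (j + 1),
    (b⟦(1 : ℤ)⟧')⟦(1 : ℤ)⟧' = comp c.hom (comp (cob ξ j) (proj A))

/-- `b ∈ E_1^2` survives nontrivially to `E_∞`. -/
def Survives {n : ℤ} (b : Hom (sph T n) (ten H (A.X 2))) : Prop :=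
  A.IsPermCycle 2 b ∧ ¬ A.IsBoundary 2 b

/-- `θ ∈ π_n S` is detected by `b ∈ E_1^2`: it has Adams filtration exactly two and its image in
`E_∞^2` is a nonzero multiple of the class of `b`. -/
def Detects {n : ℤ} (b : Hom (sph T n) (ten H (A.X 2))) (θ : Hom (sph T n) T.one) : Prop :=
  ¬ A.FiltGe 3 θ ∧ ∃ (w : Hom (sph T n) (A.X 2)) (c : ℤ), ¬ (3 : ℤ) ∣ c ∧
    comp w (A.toSphere 2) = θ ∧ A.IsBoundary 2 (comp w (hur e (A.X 2)) - c • b)

end Vale.Agent.P236K.St
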