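import Vale.Agent.P236K.St.NB
import Vale.Agent.P236K.St5.Asm

/-!
# P236, block St: the block is proved
-/

open CategoryTheory MonoidalCategory MonObj Limits Pretriangulated

namespace Vale.Agent.P236K.St

open Vale.Agent.P251 Vale.Agent.P251.S Vale.Agent.P251.M Vale.Agent.P251.St Vale.Agent.P236Z
  EvenSpheres

theorem pi4' : St5.PI4 := by
  intro T S H _ _ hH ξ hξ g
  have := locallySmall_self.{0} T.C
  obtain ⟨D, hU⟩ := exists_MU T S
  obtain ⟨u, _⟩ := Dt.exists_thom D hH.conc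
  obtain ⟨-, m', -, -, -, h⟩ := exists_unit hU hH u (s4_ne hξ)
  obtain ⟨m, hm⟩ := exists_zsmul hU hH u ((s4 T).hom ≫ g)
  rw [h, smul_smul, ← St5.of_zsmul, ← Preadditive.comp_zsmul] at hm
  exact ⟨m * m', (cancel_epi (s4 T).hom).1 (P257.H80.of_injective hm)⟩

theorem tau0 : St5.TAU0 := by
  intro T S H _ _ hH D hU u _ t ht h
  have := locallySmall_self.{0} T.C
  have h1 := congrArg (HRing.of (stdEven T.C) (H ⊗ H) _) h
  rw [Dt.e2, ← HRing.map_of, D.of_evw, St5.of_zero] at h1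
  have h2 : (8 : ℤ) • xi1 u = 0 := (th1_t1 hU hH u ht).symm.trans h1
  refine xi1_pow_ne hU hH u 1 ?_
  rw [zsmul_eq_mul, Int.cast_ofNat] at h2
  linear_combination 3 * xi1 u * St5.three_ring (St5.three_hom (inlM H H) (St5.BD.three_H hH)) - h2

/-- The final statement from the three inputs in the tower of `MU`. -/
theorem final_of (k2 : St5.KERV 2) (k3 : St5.KERV 3) (h1 : NoOne) : FINAL :=
  St5.final_of pi4' tau0 (nb 0) (nb 2) (nb 3) k2 k3 h1

theorem st : ST := St5.st_of pi4' tau0 (nb 0) (nb 2) (nb 3)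

end Vale.Agent.P236K.St
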