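import Vale.Agent.P236K.St.Split
import Vale.Agent.P236Z.Top.All

/-!
# P236, block St: the assembly of the final statement
-/

open CategoryTheory MonoidalCategory MonObj Limits Pretriangulated

namespace Vale.Agent.P236K.St

open Vale.Agent.P251 Vale.Agent.P251.St Vale.Agent.P251.St.SHCat Vale.Agent.P236Z.St
  Vale.Agent.P236Z

variable {T : SHCat} {H : T.C} {e : Hom T.one H} (A : AdamsTower e)

theorem good (h3 : (3 : ℤ) • 𝟙 H = 0) {n : ℤ} {b : sph T n ⟶ H ⊗ A.X 2} (hb : ¬ A.IsBoundary 2 b)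
    {w : sph T n ⟶ A.X 2} {c : ℤ} (hw : (3 : ℤ) • (w ≫ A.toSphere 2) = 0) (hc : ¬ (3 : ℤ) ∣ c)
    (h : A.IsBoundary 2 (w ≫ hur e (A.X 2) - c • b)) :
    Survives A b ∧ ∃ θ : Hom (sph T n) T.one, addOrderOf θ = 3 ∧ Detects A b θ := by
  obtain ⟨y, hy, hy'⟩ := id h
  replace hy : y ≫ A.toSphere 2 = 0 := hy
  replace hy' : y ≫ hur e (A.X 2) = w ≫ hur e (A.X 2) - c • b := hy'
  obtain ⟨x, c', hx⟩ := (Int.prime_three.irreducible.coprime_iff_not_dvd.2 hc : IsCoprime 3 c)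
  have h1 : (c' • (w - y)) ≫ hur e (A.X 2) = b := by
    rw [Preadditive.zsmul_comp, Preadditive.sub_comp, hy', sub_sub_cancel, smul_smul,
      ← sub_eq_iff_eq_add'.2 hx.symm, sub_smul, one_smul, mul_smul, Cv.three_ten h3, smul_zero,
      sub_zero]
  have h2 : ¬ A.FiltGe 3 (w ≫ A.toSphere 2) := by
    rintro ⟨v, hv⟩
    replace hv : v ≫ A.g 2 ≫ A.toSphere 2 = w ≫ A.toSphere 2 := hv
    refine hb ⟨c' • (w - y) - c' • (v ≫ A.g 2), ?_, ?_⟩
    · change (c' • (w - y) - c' • (v ≫ A.g 2)) ≫ A.toSphere 2 = 0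
      rw [← smul_sub, Preadditive.zsmul_comp, Preadditive.sub_comp, Preadditive.sub_comp, hy,
        Category.assoc, hv, sub_zero, sub_self, smul_zero]
    · have h4 : A.g 2 ≫ hur e (A.X 2) = 0 := comp_distTriang_mor_zero₁₂ _ (A.dist 2)
      change (c' • (w - y) - c' • (v ≫ A.g 2)) ≫ hur e (A.X 2) = b
      rw [Preadditive.sub_comp, h1, Preadditive.zsmul_comp, Category.assoc, h4, comp_zero,
        smul_zero, sub_zero]
  refine ⟨⟨fun r => ⟨0, ?_⟩, hb⟩, w ≫ A.toSphere 2, ?_, h2, w, c, hc, rfl, h⟩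
  · have h4 : hur e (A.X 2) ≫ A.d 2 = 0 := comp_distTriang_mor_zero₂₃ _ (A.dist 2)
    change 0 ≫ _ = b ≫ A.d 2
    rw [← h1, Category.assoc, h4, comp_zero, zero_comp]
  · have : Fact (Nat.Prime 3) := ⟨Nat.prime_three⟩
    refine addOrderOf_eq_prime ((natCast_zsmul _ 3).symm.trans hw) fun h0 => h2 ⟨0, ?_⟩
    rw [h0]
    exact zero_comp

theorem st_of (h4 : PI4) (hN : ∀ j, NB j) (h0 : DET 0) (h2 : HopfM 2 → DET 2)
    (h3 : HopfM 3 → DET 3) : ST := by
  intro m2 m3 n1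
  refine ⟨nonempty_susp, fun T S => ⟨?_, fun H _ _ hH => ?_⟩⟩
  · have := locallySmall_self.{0} T.C
    obtain ⟨H, i1, i2, h⟩ := Dt.exists_HFmon S.toSpaceFunctor (p := 3) (by norm_num)
    exact ⟨H, i1, i2, (Top.isHF_iff 3).2 h⟩
  have hH' := (Top.isHF_iff 3).1 hH
  refine ⟨Top.nonempty_tower _, h4 T S H hH', fun A ξ hξ j => ⟨exists_isB A ξ j, fun b hb => ?_⟩⟩
  by_cases hj : j = 0 ∨ j = 2 ∨ j = 3
  · have hD : DET j := by
      rcases hj with rfl | rfl | rfl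
      exacts [h0, h2 m2, h3 m3]
    obtain ⟨w, c, hw, hc, h⟩ := hD T S H hH' A ξ hξ b hb
    have h5 := good A (St5.three_id (St5.BD.three_H hH')) (hN j T S H hH' A ξ hξ b hb) hw hc h
    exact ⟨⟨fun _ => hj, fun _ => h5.1⟩, fun _ => h5.2⟩
  · have h5 : ¬ Survives A b := by
      rintro ⟨hp, hn⟩
      by_cases h1 : j = 1
      · subst h1
        obtain ⟨y, rfl⟩ := Cv.exists_of_perm A S Cv.sahn
          (have := locallySmall_self.{0} T.C; Cv.exp T.C)
          (have := locallySmall_self.{0} T.C; Cv.divi T.C) hH (by norm_num [stem]) 2 b hp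
        exact hn (Cv.boundary_of A (fun θ => Top.filtGe_three A (n1 T S H _ hH' θ)) le_rfl y)
      · exact hn ((((Top.fin2.2 T S).2 H _ hH).2 A j (by omega)).2 2 le_rfl b hp)
    exact ⟨⟨fun h => absurd h h5, fun h => absurd h hj⟩, fun h => absurd h h5⟩

end Vale.Agent.P236K.St
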