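import Vale.Agent.P236K.St.Split
import Vale.Agent.P236Z.Cv.Fin

/-!
# P236, block St: the kernel of the projection from the cobar complex
-/

open CategoryTheory MonoidalCategory MonObj Limits Pretriangulated

set_option linter.unusedSectionVars false

universe v u

namespace Vale.Agent.P236K.St

open Vale.Agent.P251 Vale.Agent.P251.S Vale.Agent.P251.T Vale.Agent.P251.M Vale.Agent.P251.H
  Vale.Agent.P251.I Vale.Agent.P236Z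

section general

variable {T : Type u} [Category.{v} T] [Preadditive T] [HasZeroObject T]
    [HasShift T ℤ] [∀ n : ℤ, (shiftFunctor T n).Additive] [Pretriangulated T] [IsTriangulated T]
    [MonoidalCategory T] [SymmetricCategory T] [TensorTriangulated T] [MonoidalClosed T]
    [HasCoproducts.{0} T] [HasProducts.{0} T] [StableCat T]

variable {H X₁ X₂ : T} [MonObj H] {g₀ : X₁ ⟶ 𝟙_ T} {d₀ : H ⟶ X₁⟦(1 : ℤ)⟧} {g₁ : X₂ ⟶ X₁}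
  {d₁ : H ⊗ X₁ ⟶ X₂⟦(1 : ℤ)⟧}

/-- the projection from the cobar complex in degree two -/
noncomputable def pr2 (d₀ : H ⟶ X₁⟦(1 : ℤ)⟧) (d₁ : H ⊗ X₁ ⟶ X₂⟦(1 : ℤ)⟧) :
    H ⊗ (H ⊗ H) ⟶ ((H ⊗ X₂)⟦(1 : ℤ)⟧)⟦(1 : ℤ)⟧ :=
  H ◁ (H ◁ d₀ ≫ (csh H 1 X₁).hom ≫ d₁⟦(1 : ℤ)⟧') ≫ (csh H 1 _).hom ≫ (csh H 1 X₂).hom⟦(1 : ℤ)⟧'

theorem lift_d₀ (D₀ : Dist g₀ η[H] d₀) {P : T} (t : P ⟶ H ⊗ X₁⟦(1 : ℤ)⟧) :
    ∃ a : P ⟶ H ⊗ H, a ≫ H ◁ d₀ = t := by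
  obtain ⟨_, E⟩ := Tr.dist_tensL D₀.rot.rot H
  have h : H ◁ g₀ = 0 := Dt.null_of_un ((Tr.null_unit_iff g₀).2 D₀.zero₁₂)
  refine E.lift₂ t ?_
  have h1 : H ◁ (-g₀⟦(1 : ℤ)⟧') = -(H ◁ g₀⟦(1 : ℤ)⟧') := (tensorLeft H).map_neg
  rw [h1, Dt.null_shift h 1, neg_zero, comp_zero]

theorem ker_pr2 (D₀ : Dist g₀ η[H] d₀) (D₁ : Dist g₁ (unitMap H X₁) d₁) {P : T}
    (z : P ⟶ H ⊗ (H ⊗ H)) (hz : z ≫ pr2 d₀ d₁ = 0) :
    ∃ a b : P ⟶ H ⊗ H, z = a ≫ H ◁ inrM H H + b ≫ H ◁ inlM H H := by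
  have hn : ∀ {A B : T} (f : A ⟶ B), H ◁ (-f) = -(H ◁ f) := fun f => (tensorLeft H).map_neg
  obtain ⟨_, E⟩ := Tr.dist_tensL D₁.rot.rot.rot.rot H
  obtain ⟨t, ht⟩ := E.lift₂ (z ≫ H ◁ (H ◁ d₀ ≫ (csh H 1 X₁).hom)) (by
    rw [hn, Preadditive.comp_neg, neg_eq_zero, Category.assoc,
      ← MonoidalCategory.whiskerLeft_comp, Category.assoc,
      ← cancel_mono ((csh H 1 _).hom ≫ (csh H 1 X₂).hom⟦(1 : ℤ)⟧'), Category.assoc, zero_comp]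
    exact hz)
  obtain ⟨a, rfl⟩ := lift_d₀ D₀ t
  obtain ⟨_, E₁⟩ := Tr.dist_tensL D₀.rot H
  obtain ⟨_, E₂⟩ := Tr.dist_tensL E₁ H
  obtain ⟨b, hb⟩ := E₂.lift₂ (z + a ≫ H ◁ inrM H H) (by
    rw [← cancel_mono (H ◁ (csh H 1 X₁).hom), Category.assoc, ← MonoidalCategory.whiskerLeft_comp,
      Preadditive.add_comp, ← ht, hn, Preadditive.comp_neg, zero_comp, neg_add_eq_zero,
      Category.assoc, Category.assoc, ← MonoidalCategory.whiskerLeft_comp,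
      ← MonoidalCategory.whiskerLeft_comp, ← unitMap_csh, unitMap_nat_assoc]
    rfl)
  refine ⟨-a, b ≫ H ◁ (ρ_ H).hom, ?_⟩
  rw [Category.assoc, ← MonoidalCategory.whiskerLeft_comp, inlM, Iso.hom_inv_id_assoc, hb,
    Preadditive.neg_comp, neg_add_cancel_comm_assoc]

theorem ker_of_bd (D₀ : Dist g₀ η[H] d₀) (D₁ : Dist g₁ (unitMap H X₁) d₁) {P Q : T}
    (hQ : ∀ h : Q⟦(1 : ℤ)⟧ ⟶ H, h = 0) (c : P ⟶ (Q⟦(1 : ℤ)⟧)⟦(1 : ℤ)⟧) (y : Q ⟶ X₂)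
    (hy : y ≫ g₁ ≫ g₀ = 0) (z : P ⟶ H ⊗ (H ⊗ H))
    (hz : z ≫ pr2 d₀ d₁ = c ≫ ((y ≫ unitMap H X₂)⟦(1 : ℤ)⟧')⟦(1 : ℤ)⟧') :
    ∃ v a b : P ⟶ H ⊗ H, z = v ≫ inrM H (H ⊗ H) + (a ≫ H ◁ inrM H H + b ≫ H ◁ inlM H H) := by
  obtain ⟨h, hh⟩ := D₀.lift₁ ((y ≫ g₁)⟦(1 : ℤ)⟧') (by
    rw [← Functor.map_comp, Category.assoc, hy, Functor.map_zero])
  obtain ⟨v, hv⟩ := D₁.lift₁ (y⟦(1 : ℤ)⟧') (by rw [← Functor.map_comp, ← hh, hQ h, zero_comp])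
  obtain ⟨v', hv'⟩ := lift_d₀ D₀ (c ≫ v⟦(1 : ℤ)⟧' ≫ (csh H 1 X₁).inv)
  obtain ⟨a, b, hab⟩ := ker_pr2 D₀ D₁ (z - v' ≫ unitMap H (H ⊗ H)) (by
    rw [Preadditive.sub_comp, hz, sub_eq_zero, pr2, Category.assoc, ← unitMap_nat_assoc,
      unitMap_csh_assoc, ← Functor.map_comp, unitMap_csh, Category.assoc, reassoc_of% hv',
      Category.assoc, Iso.inv_hom_id_assoc, ← Functor.map_comp_assoc, hv, Functor.map_comp,
      Functor.map_comp])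
  exact ⟨v', a, b, sub_eq_iff_eq_add'.1 hab⟩

end general

open Vale.Agent.P251.St Vale.Agent.P251.St.SHCat Vale.Agent.P236Z.St

variable {T : SHCat} {H : T.C} [MonObj H] (A : AdamsTower η[H])

theorem exch_eq (H Y : T.C) : exch H Y = (csh H 1 Y).hom := by
  rw [csh_one, ← id_tensorHom]
  rfl

/-- the first connecting map -/
def dz : H ⟶ (A.X 1)⟦(1 : ℤ)⟧ := (ρ_ H).inv ≫ H ◁ A.base.inv ≫ A.d 0

theorem dist_dz : P251.H.Dist (A.g 0 ≫ A.base.hom) η[H] (dz A) := by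
  have h := Tr.dist_iso (Top.tower_dist A 0) (Iso.refl _) A.base.symm
    ((ρ_ H).symm ≪≫ whiskerLeftIso H A.base.symm) (f' := A.g 0 ≫ A.base.hom) (g' := η[H])
    (by simp) (by
      rw [Iso.symm_hom, Tr.hur_naturality, Iso.trans_hom, Iso.symm_hom, ← Category.assoc,
        (Iso.comp_inv_eq _).2 Tr.hur_unit.symm]
      rfl)
  simpa [dz] using h

theorem proj_eq : proj A = pr2 (dz A) (A.d 1) := by
  simp only [proj, pr2, dz, exch_eq, ← id_tensorHom]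

/-- If `b_j` is hit by a differential, then the cobar cochain is a sum of three degenerate terms. -/
theorem deg_of_bd (F : SpaceFunctor T.C) (hH : Tr.IsHF 3 η[H]) {ξ : sph T 4 ⟶ H ⊗ H} {j : ℕ}
    {b : sph T (stem j) ⟶ H ⊗ A.X 2} (h : IsB A ξ j b) (hb : A.IsBoundary 2 b) :
    ∃ v a a' : (stdEven T.C).S (2 * 3 ^ (j + 1)) ⟶ H ⊗ H, (bigIso T (j + 1)).hom ≫ cob ξ j =
      v ≫ inrM H (H ⊗ H) + (a ≫ H ◁ inrM H H + a' ≫ H ◁ inlM H H) := by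
  obtain ⟨m, hm, h⟩ := h.eq A ξ j F
  obtain ⟨y, hy, rfl⟩ := hb
  have h1 : m * m = 1 := by rcases hm with rfl | rfl <;> rfl
  refine ker_of_bd (dist_dz A) (Top.tower_dist A 1) (fun g => ?_) (m • (ssIso T j).hom) y hy _ ?_
  · let c : (𝟙_ T.C)⟦stem j + 1⟧ ≅ (sph T (stem j))⟦(1 : ℤ)⟧ :=
      (shiftFunctorAdd' T.C (stem j) 1 (stem j + 1) rfl).app _
    rw [← cancel_epi c.hom, comp_zero]
    exact hH.conc _ (by unfold stem; omega) _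
  · rw [Top.hur_eq] at h
    rw [Preadditive.zsmul_comp, ← proj_eq, Category.assoc]
    exact ((congrArg (m • ·) h).trans (by rw [smul_smul, h1, one_smul])).symm

end Vale.Agent.P236K.St
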