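import Vale.Agent.P236K.St.Pi4
import Vale.Agent.P236K.St.Ker

/-!
# P236, block St: `b_j` is not hit by a differential
-/

open CategoryTheory MonoidalCategory MonObj Limits Pretriangulated

set_option linter.unusedSectionVars false

universe u

namespace Vale.Agent.P236K.St

open Vale.Agent.P251 Vale.Agent.P251.S Vale.Agent.P251.T Vale.Agent.P251.M Vale.Agent.P251.F
  Vale.Agent.P251.I Vale.Agent.P251.H EvenSpheres Vale.Agent.P257.H80 Vale.Agent.P236K.St5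
  Vale.Agent.P236Z

section general

variable {T : Type u} [Category.{0} T] [Preadditive T] [HasZeroObject T]
    [HasShift T ℤ] [∀ n : ℤ, (shiftFunctor T n).Additive] [Pretriangulated T] [IsTriangulated T]
    [MonoidalCategory T] [SymmetricCategory T] [TensorTriangulated T] [MonoidalClosed T]
    [HasCoproducts.{0} T] [HasProducts.{0} T] [StableCat T] [LocallySmall.{0} T]

variable {F : SpaceFunctor T} {e : F.S.obj CCF ≅ (stdEven T).L} {D : MUData T}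

section cob

variable {K N : T} [MonObj K] [IsCommMonObj K] [MonObj N] [IsCommMonObj N]

theorem map_map_eq {A B C : T} [MonObj A] [MonObj B] [MonObj C] {f : A ⟶ B} {g : B ⟶ C}
    {h : A ⟶ C} [IsMonHom f] [IsMonHom g] [IsMonHom h] (e : f ≫ g = h) (x : HRing (stdEven T) A) :
    HRing.map g (HRing.map f x) = HRing.map h x := by
  rw [← HRing_map_congr' e, HRing.map_comp, RingHom.comp_apply]

theorem isHomog_cobR (j : ℕ) {x : HRing (stdEven T) (K ⊗ K)} (hx : IsHomog (K ⊗ K) 2 x) :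
    IsHomog (K ⊗ (K ⊗ K)) (2 * 3 ^ (j + 1)) (cobR j x) := by
  obtain ⟨x, rfl⟩ := hx
  have h1 := IsHomog.pow ⟨x ≫ K ◁ inlM K K, rfl⟩ (3 ^ j)
  have h2 := IsHomog.pow ⟨x ≫ inrM K (K ⊗ K), rfl⟩ (3 ^ j)
  obtain ⟨a, ha⟩ := h1.mul (h2.pow 2) (l := 2 * 3 ^ (j + 1)) (by push_cast; ring)
  obtain ⟨b, hb⟩ := (h1.pow 2).mul h2 (l := 2 * 3 ^ (j + 1)) (by push_cast; ring)
  exact ⟨a + b, by rw [cobR, HRing.map_of, HRing.map_of, ha, hb, of_add]⟩

theorem wl_ten (κ : K ⟶ N) [IsMonHom κ] :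
    K ◁ inlM K K ≫ (κ ⊗ₘ (κ ⊗ₘ κ)) = (κ ⊗ₘ κ) ≫ N ◁ inlM N N := by
  rw [← id_tensorHom, ← id_tensorHom, tensorHom_comp_tensorHom, tensorHom_comp_tensorHom, inlM_ten,
    Category.id_comp, Category.comp_id]

theorem wr_ten (κ : K ⟶ N) [IsMonHom κ] :
    K ◁ inrM K K ≫ (κ ⊗ₘ (κ ⊗ₘ κ)) = (κ ⊗ₘ κ) ≫ N ◁ inrM N N := by
  rw [← id_tensorHom, ← id_tensorHom, tensorHom_comp_tensorHom, tensorHom_comp_tensorHom, inrM_ten,
    Category.id_comp, Category.comp_id]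

theorem map_cobR (κ : K ⟶ N) [IsMonHom κ] (j : ℕ) (x : HRing (stdEven T) (K ⊗ K)) :
    HRing.map (κ ⊗ₘ (κ ⊗ₘ κ)) (cobR j x) = cobR j (HRing.map (κ ⊗ₘ κ) x) := by
  simp only [cobR, map_add, map_mul, map_pow]
  rw [map_map_eq (wl_ten κ), map_map_eq (inrM_ten κ (κ ⊗ₘ κ)), map_map_eq rfl, map_map_eq rfl]

variable (f₀ f₁ f₂ : K ⟶ N) [IsMonHom f₀] [IsMonHom f₁] [IsMonHom f₂]

theorem wl_desc : K ◁ inlM K K ≫ descM f₀ (descM f₁ f₂) = descM f₀ f₁ := by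
  rw [descM, ← id_tensorHom, tensorHom_comp_tensorHom_assoc, inlM_descM, Category.id_comp, descM]

theorem wr_desc : K ◁ inrM K K ≫ descM f₀ (descM f₁ f₂) = descM f₀ f₂ := by
  rw [descM, ← id_tensorHom, tensorHom_comp_tensorHom_assoc, inrM_descM, Category.id_comp, descM]

theorem desc_cobR (j : ℕ) (x : HRing (stdEven T) (K ⊗ K)) :
    HRing.map (descM f₀ (descM f₁ f₂)) (cobR j x) =
      HRing.map (descM f₀ f₁) x ^ 3 ^ j * (HRing.map (descM f₁ f₂) x ^ 3 ^ j) ^ 2 +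
        (HRing.map (descM f₀ f₁) x ^ 3 ^ j) ^ 2 * HRing.map (descM f₁ f₂) x ^ 3 ^ j := by
  simp only [cobR, map_add, map_mul, map_pow]
  rw [map_map_eq (wl_desc f₀ f₁ f₂), map_map_eq (inrM_descM f₀ (descM f₁ f₂))]

end cob

variable {H : T} [MonObj H] [IsCommMonObj H] (hU : MUUniv e D) (hH : Tr.IsHF 3 η[H])
  (u : D.R ⟶ H) [IsMonHom u]

include hU hH

theorem not_deg (j : ℕ) {m : ℤ} (hm : ¬ (3 : ℤ) ∣ m)
    (y₀ y₁ y₂ : (stdEven T).S (2 * 3 ^ (j + 1)) ⟶ H ⊗ H) : cobR j (m • xi1 u) ≠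
      HRing.of (stdEven T) _ _ (y₀ ≫ inrM H (H ⊗ H) + (y₁ ≫ H ◁ inrM H H + y₂ ≫ H ◁ inlM H H)) := by
  intro h
  obtain ⟨N, _, _, a, v, _, h3, ho, ha, hv⟩ := exists_chain hU hH u
  obtain ⟨Q⟩ := nonempty_BD hU (n := j + 1 + 1) (by omega)
  obtain ⟨κ, _, rfl⟩ := Q.exists_kappa hH u
  have h4 : (3 : ℤ) ≤ 3 ^ (j + 1) := by exact_mod_cast Nat.le_self_pow (by omega) 3
  have hw : (2 * 3 ^ (j + 1) : ℤ) < 3 ^ (j + 1 + 1) - 1 := by
    rw [pow_succ _ (j + 1)]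
    omega
  have c₂ := cof_two hU hH (by omega) Q κ
  obtain ⟨y₀, rfl⟩ := surj_of_cofIn D.conn_unit c₂ (by omega) y₀
  obtain ⟨y₁, rfl⟩ := surj_of_cofIn D.conn_unit c₂ (by omega) y₁
  obtain ⟨y₂, rfl⟩ := surj_of_cofIn D.conn_unit c₂ (by omega) y₂
  obtain ⟨x, hx⟩ := isHomog_ser (Q.b ≫ inlM _ _) (Q.b ≫ inrM _ _) 1
  replace hx : xi1 Q.b = HRing.of (stdEven T) _ 2 x := hx
  obtain ⟨z, hz⟩ := isHomog_cobR j (x := m • xi1 Q.b) ⟨m • x, by rw [hx, of_zsmul]⟩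
  have h1 : z = y₀ ≫ inrM _ _ + (y₁ ≫ Q.B ◁ inrM _ _ + y₂ ≫ Q.B ◁ inlM _ _) :=
    inj_of_cofIn D.conn_unit (cofIn_tensor (Q.cofIn_kappa hH κ) c₂
      ((cell_B hU (by omega) Q).tensor (cell_B hU (by omega) Q) 0 rfl) (cell_H hH D)) (by omega)
      (of_injective (by
        rw [← HRing.map_of, ← hz, map_cobR, map_zsmul, map_xi1', h]
        simp only [Preadditive.add_comp, Category.assoc, inrM_ten, wl_ten, wr_ten]))
  choose f hf hf' using fun i => Q.desc_add h3 ho (v i) (hv i).1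
  have poly : ∀ y : (stdEven T).S (2 * 3 ^ (j + 1)) ⟶ Q.B ⊗ Q.B,
      ∃ P : InvSeries (HRing (stdEven T) N) → HRing (stdEven T) N,
        (∀ s, (∀ i, ¬ 26 ∣ i + 1 → s.c (i + 1) = 0) → P s = 0) ∧
        ∀ i k, HRing.of (stdEven T) N _ (y ≫ descM (f i) (f k)) = P (ser (v i) (v k)) := by
    intro y
    obtain ⟨t, c, ht, hP⟩ := Q.exists_poly hw y
    refine ⟨fun s => ∑ a ∈ t, (c a : HRing (stdEven T) N) * mono s a, fun s hs => ?_, fun i k => ?_⟩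
    · refine Finset.sum_eq_zero fun a ha => ?_
      rw [mono_eq_zero hs fun h => ?_, mul_zero]
      rw [ht a ha] at h
      have h5 : (13 : ℤ) ∣ 3 ^ (j + 1) := Int.dvd_of_mul_dvd_mul_left (a := 2) (by norm_num) h
      exact absurd ((Int.prime_iff_natAbs_prime.2 (by norm_num)).dvd_of_dvd_pow h5) (by norm_num)
    · rw [hP N (f i) (f k) ho ((lawOf_congr (hf' k)).trans (hv k).1),
        ser_congr _ _ (hf' i) (hf' k)]
      rfl
  obtain ⟨P₀, p₀, q₀⟩ := poly y₀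
  obtain ⟨P₁, p₁, q₁⟩ := poly y₁
  obtain ⟨P₂, p₂, q₂⟩ := poly y₂
  have key : ∀ i k l, (m • (ser (v i) (v k)).c 2) ^ 3 ^ j * ((m • (ser (v k) (v l)).c 2) ^ 3 ^ j) ^ 2 +
      ((m • (ser (v i) (v k)).c 2) ^ 3 ^ j) ^ 2 * (m • (ser (v k) (v l)).c 2) ^ 3 ^ j =
      P₀ (ser (v k) (v l)) + (P₁ (ser (v i) (v l)) + P₂ (ser (v i) (v k))) := by
    intro i k l
    have h2 := congrArg (HRing.map (descM (f i) (descM (f k) (f l)))) hz
    rw [desc_cobR, map_zsmul, map_zsmul, map_xi1, map_xi1, ser_congr _ _ (hf' i) (hf' k),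
      ser_congr _ _ (hf' k) (hf' l), HRing.map_of, h1, Preadditive.add_comp, Preadditive.add_comp,
      Category.assoc, Category.assoc, Category.assoc, inrM_descM, wl_desc, wr_desc, of_add, of_add,
      q₀, q₁, q₂] at h2
    exact h2
  have r3 := three_ring h3
  have s01 : ser (v 0) (v 1) = gs a := (hv 0).2
  have s12 : ser (v 1) (v 2) = gs a := (hv 1).2
  have s23 : ser (v 2) (v 3) = gs a := (hv 2).2
  have s02 : ser (v 0) (v 2) = gs a * gs a := by rw [ser_trans _ (v 1), s12, s01]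
  have s03 : ser (v 0) (v 3) = gs a * (gs a * gs a) := by rw [ser_trans _ (v 2), s23, s02]
  have k1 := key 0 0 1
  have k2 := key 0 1 1
  have k3 := key 0 2 2
  have k4 := key 0 1 2
  have k5 := key 0 2 3
  have c1 : (1 : InvSeries (HRing (stdEven T) N)).c 2 = 0 := InvSeries.c_one_succ 1
  have c2 : m • (gs a * gs a).c 2 = 2 * (m • a) := by rw [gs_two_c r3, mul_smul_comm]
  simp only [ser_self, s01, s12, s23, s02, s03, c1, c2, gs_c, smul_zero,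
    p₀ 1 fun i _ => InvSeries.c_one_succ i, p₂ 1 fun i _ => InvSeries.c_one_succ i,
    p₁ _ (gs_three r3 a)] at k1 k2 k3 k4 k5
  have h5 := final_alg r3 j k1 k2 k3 k4 k5
  obtain ⟨x', y', hxy⟩ := (Int.prime_three.irreducible.coprime_iff_not_dvd.2 hm : IsCoprime 3 m)
  have h6 : a = y' • m • a := by
    rw [smul_smul, ← sub_eq_iff_eq_add'.2 hxy.symm, sub_smul, one_smul, mul_smul,
      zsmul_eq_mul _ 3, Int.cast_ofNat, r3, zero_mul, smul_zero, sub_zero]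
  exact ha (3 ^ (j + 1)) (by rw [h6, smul_pow, h5, smul_zero])

end general

open Vale.Agent.P251.St

theorem nb (j : ℕ) : NB j := by
  intro T S H _ _ hH A ξ hξ b hb hb'
  have := locallySmall_self.{0} T.C
  obtain ⟨D, hU⟩ := exists_MU T S
  obtain ⟨u, _⟩ := Dt.exists_thom D hH.conc
  obtain ⟨m, -, hm, -, h, -⟩ := exists_unit hU hH u (s4_ne hξ)
  obtain ⟨y₀, y₁, y₂, hy⟩ := deg_of_bd A S.toSpaceFunctor hH hb hb'
  exact not_deg hU hH u j hm y₀ y₁ y₂ (by rw [← h, ← of_cob, hy])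

end Vale.Agent.P236K.St
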