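import Vale.Agent.P236K.St.Spec
import Vale.Agent.P236K.St5.Spec
import Vale.Agent.P236K.St5.Range
import Vale.Agent.P251.M.PiZero

/-!
# P236, block St: spheres and products

* `bigIso`, `of_mul3`, `of_frob`, `of_cob`: the products of the statement in the homotopy ring;
* `iso_eq`: isomorphisms out of a sphere are unique up to sign; `cIso`, `exists_isB`, `isB_iff`.
-/

open CategoryTheory MonoidalCategory MonObj Limits Pretriangulated

namespace Vale.Agent.P236K.St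

open Vale.Agent.P251 Vale.Agent.P251.S Vale.Agent.P251.T Vale.Agent.P251.M Vale.Agent.P251.I
  Vale.Agent.P251.St Vale.Agent.P251.St.SHCat Vale.Agent.P236Z.St Vale.Agent.P236Z EvenSpheres

variable {T : SHCat}

/-- `S^4` -/
noncomputable def s4 (T : SHCat) : (stdEven T.C).S 2 ≅ sph T 4 :=
  (stdEven T.C).sphIso (Iso.refl _) 2

/-- `bigS T j` is a sphere of dimension `4 * 3 ^ j`. -/
noncomputable def bigIso (T : SHCat) : ∀ j : ℕ, (stdEven T.C).S (2 * 3 ^ j) ≅ bigS T j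
  | 0 => s4 T
  | j + 1 =>
    ((stdEven T.C).mu (2 * 3 ^ j) (2 * 3 ^ j + 2 * 3 ^ j) (2 * 3 ^ (j + 1)) (by ring)).symm ≪≫
      (bigIso T j ⊗ᵢ (((stdEven T.C).mu _ _ _ rfl).symm ≪≫ (bigIso T j ⊗ᵢ bigIso T j)))

section ring

variable {R : T.C} [MonObj R]

theorem of_mul3 (j : ℕ) (x y z : bigS T j ⟶ R) :
    HRing.of (stdEven T.C) R (2 * 3 ^ (j + 1)) ((bigIso T (j + 1)).hom ≫ mul3 x y z) =
      HRing.of (stdEven T.C) R _ ((bigIso T j).hom ≫ x) *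
        (HRing.of (stdEven T.C) R _ ((bigIso T j).hom ≫ y) *
          HRing.of (stdEven T.C) R _ ((bigIso T j).hom ≫ z)) := by
  rw [of_mul_of rfl, of_mul_of (p := 2 * 3 ^ (j + 1)) (by ring)]
  congr 1
  change (_ ≫ (_ ⊗ₘ (_ ≫ (_ ⊗ₘ _)))) ≫ (x ⊗ₘ (y ⊗ₘ z)) ≫ (𝟙 R ⊗ₘ μ[R]) ≫ μ[R] =
    (_ ≫ ((_ ≫ x) ⊗ₘ ((_ ≫ ((_ ≫ y) ⊗ₘ (_ ≫ z))) ≫ μ[R]))) ≫ μ[R]
  simp only [Category.assoc, tensorHom_comp_tensorHom_assoc, Category.comp_id]
  rfl

theorem of_frob (x : sph T 4 ⟶ R) (j : ℕ) :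
    HRing.of (stdEven T.C) R (2 * 3 ^ j) ((bigIso T j).hom ≫ frob x j) =
      HRing.of (stdEven T.C) R 2 ((s4 T).hom ≫ x) ^ 3 ^ j := by
  induction j with
  | zero => exact (pow_one _).symm
  | succ j ih =>
    refine (of_mul3 j _ _ _).trans ?_
    rw [ih, pow_succ, pow_mul, pow_three]

end ring

theorem of_cob {H : T.C} [MonObj H] [IsCommMonObj H] (ξ : sph T 4 ⟶ H ⊗ H) (j : ℕ) :
    HRing.of (stdEven T.C) (H ⊗ (H ⊗ H)) (2 * 3 ^ (j + 1)) ((bigIso T (j + 1)).hom ≫ cob ξ j) =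
      St5.cobR j (HRing.of (stdEven T.C) (H ⊗ H) 2 ((s4 T).hom ≫ ξ)) := by
  have h1 : (𝟙 H ⊗ₘ ((ρ_ H).inv ≫ (𝟙 H ⊗ₘ η[H]))) = H ◁ inlM H H := by
    rw [id_tensorHom, id_tensorHom, inlM]
  have h2 : hur η[H] (H ⊗ H) = inrM H (H ⊗ H) := by
    rw [inrM, ← tensorHom_id]
  have h3 : cob ξ j = mul3 (frob (ξ ≫ H ◁ inlM H H) j) (frob (ξ ≫ inrM H (H ⊗ H)) j)
      (frob (ξ ≫ inrM H (H ⊗ H)) j) + mul3 (frob (ξ ≫ H ◁ inlM H H) j)
      (frob (ξ ≫ H ◁ inlM H H) j) (frob (ξ ≫ inrM H (H ⊗ H)) j) := by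
    rw [← h1, ← h2]
    rfl
  rw [h3]
  refine (congrArg _ (Preadditive.comp_add _ _ _ _ _ _)).trans ((St5.of_add _ _ _).trans ?_)
  refine (congrArg₂ (· + ·) (of_mul3 j _ _ _) (of_mul3 j _ _ _)).trans ?_
  rw [of_frob, of_frob, St5.cobR, HRing.map_of, HRing.map_of, Category.assoc, Category.assoc]
  ring

/-- An automorphism of a sphere is `± 1`. -/
theorem aut_eq (F : SpaceFunctor T.C) {P : T.C} {k : ℤ} (e : P ≅ sph T k) (u : P ≅ P) :
    u.hom = 𝟙 P ∨ u.hom = -𝟙 P := by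
  have key : ∀ g : P ⟶ P, ∃ m : ℤ, g = m • 𝟙 P := fun g => by
    obtain ⟨g', hg⟩ := (shiftFunctor T.C k).map_surjective (e.inv ≫ g ≫ e.hom)
    obtain ⟨m, rfl⟩ := exists_int_unit F g'
    refine ⟨m, ?_⟩
    rw [← cancel_epi e.inv, ← cancel_mono e.hom, Category.assoc, ← hg, Functor.map_zsmul,
      CategoryTheory.Functor.map_id, Preadditive.comp_zsmul, Preadditive.zsmul_comp,
      Category.comp_id, Iso.inv_hom_id]
  obtain ⟨m, hm⟩ := key u.hom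
  obtain ⟨m', hm'⟩ := key u.inv
  have h1 : (m * m' - 1) • 𝟙 (𝟙_ T.C) = 0 := by
    apply (shiftFunctor T.C k).map_injective
    have h2 := u.hom_inv_id
    rw [hm, hm', Preadditive.zsmul_comp, Category.id_comp, smul_smul, ← sub_eq_zero] at h2
    rw [Functor.map_zsmul, CategoryTheory.Functor.map_id, Functor.map_zero, ← e.inv_hom_id,
      ← Category.id_comp e.hom, ← Preadditive.comp_zsmul, ← Preadditive.zsmul_comp, sub_smul,
      one_smul, h2, zero_comp, comp_zero]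
  rcases Int.eq_one_or_neg_one_of_mul_eq_one (sub_eq_zero.1 (eq_zero_of_zsmul_id F _ h1)) with
    rfl | rfl
  · exact Or.inl (hm.trans (one_smul _ _))
  · exact Or.inr (hm.trans (neg_one_smul _ _))

/-- Isomorphisms out of a sphere are unique up to sign. -/
theorem iso_eq (F : SpaceFunctor T.C) {P Q : T.C} {k : ℤ} (e : P ≅ sph T k) (c c' : P ≅ Q) :
    c.hom = c'.hom ∨ c.hom = -c'.hom := by
  rcases aut_eq F e (c ≪≫ c'.symm) with h | h
  · refine Or.inl ?_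
    rw [← Category.id_comp c'.hom, ← h]
    simp
  · refine Or.inr ?_
    rw [← Category.id_comp c'.hom, ← Preadditive.neg_comp, ← h]
    simp

theorem w_eq (j : ℕ) : (2 * 3 ^ (j + 1) - 1 : ℤ) + 1 = 2 * 3 ^ (j + 1) := by ring

/-- the sphere of the stem -/
noncomputable def stemIso (T : SHCat) (j : ℕ) :
    (stdEven T.C).S (2 * 3 ^ (j + 1) - 1) ≅ sph T (stem j) :=
  (stdEven T.C).sphIso (Iso.refl _) _ ≪≫ eqToIso (congrArg (sph T) (by ring))

/-- the double suspension of the sphere of the stem -/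
noncomputable def ssIso (T : SHCat) (j : ℕ) :
    (stdEven T.C).S (2 * 3 ^ (j + 1)) ≅ sus (sus (sph T (stem j))) :=
  Dt.eS (w_eq j) ≪≫
    (shiftFunctor T.C (1 : ℤ)).mapIso ((shiftFunctor T.C (1 : ℤ)).mapIso (stemIso T j))

/-- the standard identification of spheres -/
noncomputable def cIso (T : SHCat) (j : ℕ) : sus (sus (sph T (stem j))) ≅ bigS T (j + 1) :=
  (ssIso T j).symm ≪≫ bigIso T (j + 1)

variable {H : T.C} [MonObj H] {e : Hom T.one H} (A : AdamsTower e) (ξ : sph T 4 ⟶ H ⊗ H) (j : ℕ)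

theorem exists_isB : ∃ b, IsB A ξ j b := by
  obtain ⟨b₁, h₁⟩ := (shiftFunctor T.C (1 : ℤ)).map_surjective
    ((cIso T j).hom ≫ cob ξ j ≫ proj A)
  obtain ⟨b, rfl⟩ := (shiftFunctor T.C (1 : ℤ)).map_surjective b₁
  exact ⟨b, cIso T j, h₁⟩

/-- `b_j` up to sign, with the standard identification of spheres -/
theorem IsB.eq (F : SpaceFunctor T.C) {b : sph T (stem j) ⟶ H ⊗ A.X 2} (h : IsB A ξ j b) :
    ∃ m : ℤ, (m = 1 ∨ m = -1) ∧ (ssIso T j).hom ≫ (b⟦(1 : ℤ)⟧')⟦(1 : ℤ)⟧' =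
      m • ((bigIso T (j + 1)).hom ≫ cob ξ j ≫ proj A) := by
  obtain ⟨c, hc⟩ := h
  rcases iso_eq F ((stdEven T.C).sphIso (Iso.refl _) _) (ssIso T j ≪≫ c) (bigIso T (j + 1)) with
    h | h
  · exact ⟨1, Or.inl rfl, by rw [hc, one_smul, ← h, Iso.trans_hom, Category.assoc]⟩
  · refine ⟨-1, Or.inr rfl, ?_⟩
    rw [hc, neg_one_smul, ← Preadditive.neg_comp, ← h, Iso.trans_hom, Category.assoc]

end Vale.Agent.P236K.St
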