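import Vale.Agent.P236K.St.Sgn
import Vale.Agent.P251.M.LineIso
import Vale.Agent.P251.M.BGlueD
import Vale.Agent.P251.St.Result

/-!
# P236, block St: the internal interfaces
-/

open CategoryTheory MonoidalCategory MonObj Limits Pretriangulated

namespace Vale.Agent.P236K.St

open Vale.Agent.P251 Vale.Agent.P251.S Vale.Agent.P251.T Vale.Agent.P251.M Vale.Agent.P251.I
  Vale.Agent.P251.F Vale.Agent.P251.St Vale.Agent.P251.St.SHCat Vale.Agent.P236Z.St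
  Vale.Agent.P236Z

/-- A class of order three whose lift to the second stage has the Hurewicz image `c • b_j` modulo
boundaries, `c` prime to three. -/
def DET (j : ℕ) : Prop :=
  ∀ (T : SHCat) (_ : Susp T) (H : T.C) [MonObj H] [IsCommMonObj H], Tr.IsHF 3 η[H] →
    ∀ (A : AdamsTower η[H]) (ξ : sph T 4 ⟶ H ⊗ H), ξ ≠ 0 →
      ∀ b : sph T (stem j) ⟶ H ⊗ A.X 2, IsB A ξ j b →
        ∃ (w : sph T (stem j) ⟶ A.X 2) (c : ℤ), (3 : ℤ) • (w ≫ A.toSphere 2) = 0 ∧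
          ¬ (3 : ℤ) ∣ c ∧ A.IsBoundary 2 (w ≫ hur η[H] (A.X 2) - c • b)

/-- The image of `t_1` is a unit multiple of `ξ`. -/
def TAU : Prop :=
  ∀ (T : SHCat) (S : Susp T) (H : T.C) [MonObj H] [IsCommMonObj H], Tr.IsHF 3 η[H] →
    ∀ (D : MUData T.C), MUUniv (lineIso S.toSpaceFunctor) D → ∀ (u : D.R ⟶ H) [IsMonHom u]
      (t1 : Cob Laz 1), IsT1 3 t1 → ∀ ξ : sph T 4 ⟶ H ⊗ H, ξ ≠ 0 → ∃ m : ℤ, ¬ (3 : ℤ) ∣ m ∧
        St5.th1 D u t1 = m • HRing.of (stdEven T.C) (H ⊗ H) 2 ((s4 T).hom ≫ ξ)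

/-- `π_4 (H ∧ H)` is cyclic and not zero. -/
def PI4 : Prop :=
  ∀ (T : SHCat) (_ : Susp T) (H : T.C) [MonObj H] [IsCommMonObj H], Tr.IsHF 3 η[H] →
    ∃ ξ : sph T 4 ⟶ H ⊗ H, ξ ≠ 0 ∧ ∀ g : sph T 4 ⟶ H ⊗ H, ∃ m : ℤ, g = m • ξ

/-- `b_j` is not hit by a differential. -/
def NB (j : ℕ) : Prop :=
  ∀ (T : SHCat) (_ : Susp T) (H : T.C) [MonObj H] [IsCommMonObj H], Tr.IsHF 3 η[H] →
    ∀ (A : AdamsTower η[H]) (ξ : sph T 4 ⟶ H ⊗ H), ξ ≠ 0 →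
      ∀ b : sph T (stem j) ⟶ H ⊗ A.X 2, IsB A ξ j b → ¬ A.IsBoundary 2 b

end Vale.Agent.P236K.St
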